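import Vale.Agent.P015.H10.Morph

/-! Factors of the iterates of a morphism and their ancestors. -/

namespace Vale.Agent.P015.H10.Morph

variable {A : Type*} {h : A → List A}

theorem prefix_split {p X Y : List A} (hp : p <+: X ++ Y) :
    p <+: X ∨ ∃ t, p = X ++ t ∧ t <+: Y := by
  rcases List.prefix_or_prefix_of_prefix hp (List.prefix_append X Y) with h1 | h1
  · exact Or.inl h1
  · obtain ⟨t, rfl⟩ := h1
    exact Or.inr ⟨t, rfl, (List.prefix_append_right_inj X).1 hp⟩

theorem prefix_flatMap (z : List A) : ∀ p : List A, p <+: z.flatMap h → p ≠ [] →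
    ∃ m c p', m ++ [c] <+: z ∧ p' ≠ [] ∧ p' <+: h c ∧ p = m.flatMap h ++ p' := by
  induction z with
  | nil =>
    intro p hp hne
    rw [List.flatMap_nil, List.prefix_nil] at hp
    exact absurd hp hne
  | cons a z ih =>
    intro p hp hne
    rw [List.flatMap_cons] at hp
    rcases prefix_split hp with h1 | ⟨t, rfl, ht⟩
    · exact ⟨[], a, p, by simp, hne, h1, by simp⟩
    · by_cases ht0 : t = []
      · subst ht0
        refine ⟨[], a, h a, by simp, by simpa using hne, List.prefix_refl _, by simp⟩
      · obtain ⟨m, c, p', h2, h3, h4, rfl⟩ := ih t ht ht0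
        refine ⟨a :: m, c, p', ?_, h3, h4, ?_⟩
        · obtain ⟨u, hu⟩ := h2
          exact ⟨u, by rw [← hu]; simp⟩
        · rw [List.flatMap_cons, List.append_assoc]

theorem infix_flatMap (z : List A) : ∀ y : List A, y <:+: z.flatMap h → y ≠ [] →
    (∃ c ∈ z, y <:+: h c) ∨ ∃ c1 m c2 s p, c1 :: m ++ [c2] <:+: z ∧ s ≠ [] ∧ p ≠ [] ∧
      s <:+ h c1 ∧ p <+: h c2 ∧ y = s ++ m.flatMap h ++ p := by
  induction z with
  | nil =>
    intro y hy hne
    rw [List.flatMap_nil, List.infix_nil] at hy
    exact absurd hy hne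
  | cons a z ih =>
    intro y hy hne
    rw [List.flatMap_cons, List.infix_append_iff_ne_nil] at hy
    rcases hy with h1 | h1 | ⟨s, t, hs0, ht0, rfl, hs, ht⟩
    · exact Or.inl ⟨a, by simp, h1⟩
    · rcases ih y h1 hne with ⟨c, hc, h2⟩ | ⟨c1, m, c2, s, p, h2, h3⟩
      · exact Or.inl ⟨c, by simp [hc], h2⟩
      · exact Or.inr ⟨c1, m, c2, s, p, List.infix_cons h2, h3⟩
    · obtain ⟨m, c, p', h2, h3, h4, rfl⟩ := prefix_flatMap z t ht ht0
      refine Or.inr ⟨a, m, c, s, p', ?_, hs0, h3, hs, h4, by rw [List.append_assoc]⟩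
      obtain ⟨u, hu⟩ := h2
      exact ⟨[], u, by rw [← hu]; simp⟩

theorem suffix_flatMap_mono {f : A → List A} {s l : List A} (hs : s <:+ l) :
    s.flatMap f <:+ l.flatMap f := by
  obtain ⟨t, rfl⟩ := hs
  rw [List.flatMap_append]
  exact List.suffix_append _ _

theorem prefix_flatMap_mono {f : A → List A} {s l : List A} (hs : s <+: l) :
    s.flatMap f <+: l.flatMap f := by
  obtain ⟨t, rfl⟩ := hs
  rw [List.flatMap_append]
  exact List.prefix_append _ _

theorem infix_flatMap_mono {f : A → List A} {s l : List A} (hs : s <:+: l) :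
    s.flatMap f <:+: l.flatMap f := by
  obtain ⟨t, u, rfl⟩ := hs
  rw [List.flatMap_append, List.flatMap_append]
  exact ⟨_, _, rfl⟩

/-- Each long factor `y` of an iterate comes from a short factor `c1 m c2`. -/
theorem ancestor {M L : ℕ} (hM : ∀ a, (h a).length ≤ M) (hL : 1 ≤ L) (a0 : A) :
    ∀ (k : ℕ) (y : List A), y <:+: it h k a0 → L + 1 ≤ y.length →
    ∃ (r : ℕ) (c1 : A) (m : List A) (c2 : A) (s p : List A),
      (∃ k', c1 :: m ++ [c2] <:+: it h k' a0) ∧ L + 1 ≤ m.length + 2 ∧
      m.length + 2 ≤ (M + 2) * L ∧ s <:+ it h r c1 ∧ p <+: it h r c2 ∧ s ≠ [] ∧ p ≠ [] ∧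
      y = s ++ m.flatMap (it h r) ++ p := by
  intro k
  induction k with
  | zero =>
    intro y hy hlen
    have h1 := hy.length_le
    simp only [it, List.length_cons, List.length_nil] at h1
    omega
  | succ k ih =>
    intro y hy hlen
    by_cases hbig : y.length ≤ (M + 2) * L
    · have hne : y ≠ [] := by rintro rfl; simp at hlen
      obtain ⟨c1, t, rfl⟩ := List.exists_cons_of_ne_nil hne
      have htne : t ≠ [] := by
        rintro rfl
        simp at hlen
        omega
      obtain ⟨m, c2, rfl⟩ : ∃ m c2, t = m ++ [c2] :=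
        ⟨t.dropLast, t.getLast htne, (List.dropLast_append_getLast htne).symm⟩
      simp only [List.length_cons, List.length_append, List.length_nil] at hlen hbig
      refine ⟨0, c1, m, c2, [c1], [c2], ⟨k + 1, by simpa using hy⟩, by omega, by omega,
        by simp [it], by simp [it], by simp, by simp, ?_⟩
      rw [it_zero, List.flatMap_singleton']
      simp
    · push Not at hbig
      have hML : M ≤ (M + 2) * L := by nlinarith
      have hne : y ≠ [] := by rintro rfl; simp at hlen
      rcases infix_flatMap _ y hy hne with ⟨c, -, h1⟩ | ⟨c1', m', c2', s', p', h1, hs0, hp0, hs,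
        hp, rfl⟩
      · have h2 := h1.length_le
        have h3 := hM c
        omega
      · have h2 := hs.length_le
        have h3 := hp.length_le
        have h4 := hM c1'
        have h5 := hM c2'
        have h6 := length_flatMap_le (f := h) m' (fun a _ => hM a)
        rw [List.length_append, List.length_append] at hbig
        have h7 : L + 1 ≤ m'.length + 2 := by
          by_contra hcon
          push Not at hcon
          have h8 : M * (m'.length + 2) ≤ M * L := Nat.mul_le_mul_left M (by omega)
          nlinarith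
        obtain ⟨r, c1, m, c2, s1, p1, ⟨k', hk'⟩, g1, g2, g3, g4, g5, g6, g7⟩ :=
          ih (c1' :: m' ++ [c2']) h1 (by
            simp only [List.length_append, List.length_cons, List.length_nil]
            omega)
        obtain ⟨e1, s1', rfl⟩ := List.exists_cons_of_ne_nil g5
        obtain ⟨p1', e2, rfl⟩ : ∃ m c2, p1 = m ++ [c2] :=
          ⟨p1.dropLast, p1.getLast g6, (List.dropLast_append_getLast g6).symm⟩
        have g8 : c1' = e1 ∧ m' ++ [c2'] = s1' ++ m.flatMap (it h r) ++ p1' ++ [e2] := by
          have : c1' :: (m' ++ [c2']) =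
              e1 :: (s1' ++ m.flatMap (it h r) ++ p1' ++ [e2]) := by
            simpa using g7
          exact List.cons_eq_cons.1 this
        obtain ⟨rfl, g9⟩ := g8
        obtain ⟨g10, g11⟩ := List.append_inj' g9 rfl
        obtain rfl : c2' = e2 := by simpa using g11
        refine ⟨r + 1, c1, m, c2, s' ++ s1'.flatMap h, p1'.flatMap h ++ p', ⟨k', hk'⟩, g1, g2,
          ?_, ?_, ?_, ?_, ?_⟩
        · refine List.IsSuffix.trans ?_ (suffix_flatMap_mono (f := h) g3)
          rw [List.flatMap_cons]
          obtain ⟨t, ht⟩ := hs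
          exact ⟨t, by rw [← ht]; simp⟩
        · refine List.IsPrefix.trans ?_ (prefix_flatMap_mono (f := h) g4)
          rw [List.flatMap_append, List.flatMap_singleton]
          exact (List.prefix_append_right_inj _).2 hp
        · simp [hs0]
        · simp [hp0]
        · rw [g10, flatMap_it_succ, List.flatMap_append, List.flatMap_append]
          simp

end Vale.Agent.P015.H10.Morph
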