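import Vale.Agent.P015.H10.Chain

/-! Dual certificates for the optimisation problem behind the complexity exponent. -/

namespace Vale.Agent.P015.H10

open Finset

/-- value of the certificate `(n, Z, c, d)` with error `δ` -/
noncomputable def val (x Z δ : ℝ) (c d : ℕ → ℝ) (n : ℕ) : ℝ :=
  ∑ s ∈ range (n + 1), x ^ s * (2 * c s + 2 * Z * d s - c s ^ 2 * (1 + δ))

/-- dual feasibility -/
def Feasible (x Z : ℝ) (c d : ℕ → ℝ) (n : ℕ) : Prop :=
  ∀ l ≤ n, x ^ l * (Z * d l ^ 2) ≤ ∑ s ∈ range (l + 1), x ^ s * c s ^ 2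

theorem tangent {a c : ℝ} (ha : 0 < a) : 2 * c - c ^ 2 * a ≤ 1 / a := by
  rw [le_div_iff₀ ha]
  nlinarith [sq_nonneg (c * a - 1)]

/-- weak duality -/
theorem cert {x Z δ : ℝ} {c d : ℕ → ℝ} {n : ℕ} (hx : 0 < x) (hZ : 0 ≤ Z)
    (hcd : Feasible x Z c d n) (a f : ℕ → ℝ) (ha : ∀ s ≤ n, 0 < a s) (hf : ∀ s ≤ n, 0 < f s)
    (hsum : ∀ s ≤ n, a s + ∑ l ∈ Ico s (n + 1), f l ≤ 1 + δ) :
    val x Z δ c d n ≤ ∑ s ∈ range (n + 1), x ^ s * (1 / a s + Z / f s) := by
  have h1 : ∀ s ∈ range (n + 1), x ^ s * (2 * c s - c s ^ 2 * (1 + δ) +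
      c s ^ 2 * ∑ l ∈ Ico s (n + 1), f l) + (x ^ s * (2 * Z * d s) - x ^ s * (Z * d s ^ 2) * f s) ≤
      x ^ s * (1 / a s + Z / f s) := by
    intro s hs
    have hs' : s ≤ n := by rw [mem_range] at hs; omega
    have e1 := tangent (c := c s) (ha s hs')
    have e2 := tangent (c := d s) (hf s hs')
    have e3 := hsum s hs'
    have e4 : Z * (2 * d s - d s ^ 2 * f s) ≤ Z * (1 / f s) := mul_le_mul_of_nonneg_left e2 hZ
    have e5 : c s ^ 2 * (a s + ∑ l ∈ Ico s (n + 1), f l) ≤ c s ^ 2 * (1 + δ) :=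
      mul_le_mul_of_nonneg_left e3 (sq_nonneg _)
    have e6 : 2 * c s - c s ^ 2 * (1 + δ) + c s ^ 2 * ∑ l ∈ Ico s (n + 1), f l +
        (2 * Z * d s - Z * d s ^ 2 * f s) ≤ 1 / a s + Z / f s := by
      have e7 : Z * (1 / f s) = Z / f s := by rw [mul_one_div]
      linarith
    have e8 := mul_le_mul_of_nonneg_left e6 (pow_pos hx s).le
    refine le_trans (le_of_eq ?_) e8
    ring
  refine le_trans ?_ (Finset.sum_le_sum h1)
  rw [Finset.sum_add_distrib, Finset.sum_sub_distrib]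
  have h2 : ∑ s ∈ range (n + 1), x ^ s * (2 * c s - c s ^ 2 * (1 + δ) +
      c s ^ 2 * ∑ l ∈ Ico s (n + 1), f l) =
      ∑ s ∈ range (n + 1), x ^ s * (2 * c s - c s ^ 2 * (1 + δ)) +
      ∑ l ∈ range (n + 1), (∑ s ∈ range (l + 1), x ^ s * c s ^ 2) * f l := by
    have e1 : ∑ s ∈ range (n + 1), x ^ s * (2 * c s - c s ^ 2 * (1 + δ) +
        c s ^ 2 * ∑ l ∈ Ico s (n + 1), f l) =
        ∑ s ∈ range (n + 1), x ^ s * (2 * c s - c s ^ 2 * (1 + δ)) +
        ∑ s ∈ range (n + 1), ∑ l ∈ Ico s (n + 1), x ^ s * c s ^ 2 * f l := by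
      rw [← Finset.sum_add_distrib]
      refine Finset.sum_congr rfl fun s _ => ?_
      rw [← Finset.mul_sum]
      ring
    rw [e1]
    refine congrArg (fun t => _ + t) ?_
    rw [Finset.range_eq_Ico, Finset.sum_Ico_Ico_comm]
    refine Finset.sum_congr rfl fun l _ => ?_
    rw [Finset.sum_mul, Finset.range_eq_Ico]
  have h3 : ∑ l ∈ range (n + 1), x ^ l * (Z * d l ^ 2) * f l ≤
      ∑ l ∈ range (n + 1), (∑ s ∈ range (l + 1), x ^ s * c s ^ 2) * f l := by
    refine Finset.sum_le_sum fun l hl => ?_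
    have hl' : l ≤ n := by rw [mem_range] at hl; omega
    exact mul_le_mul_of_nonneg_right (hcd l hl') (hf l hl').le
  have h4 : val x Z δ c d n = ∑ s ∈ range (n + 1), x ^ s * (2 * c s - c s ^ 2 * (1 + δ)) +
      ∑ s ∈ range (n + 1), x ^ s * (2 * Z * d s) := by
    rw [← Finset.sum_add_distrib]
    refine Finset.sum_congr rfl fun s _ => ?_
    ring
  rw [h2, h4]
  linarith

theorem geom_Ico {x : ℝ} (hx : 0 < x) (m M : ℕ) (h : m ≤ M) :
    (1 - x) * ∑ i ∈ Ico m M, x ^ i ≤ x ^ m := by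
  have key : (1 - x) * ∑ i ∈ Ico m M, x ^ i = x ^ m - x ^ M := by
    induction M, h using Nat.le_induction with
    | base => simp
    | succ M hM ih =>
      rw [Finset.sum_Ico_succ_top hM, mul_add, ih]
      ring
  rw [key]
  have := pow_pos hx M
  linarith

/-- the inequality for one prime -/
theorem per_prime {x Z δ : ℝ} {c d : ℕ → ℝ} {n M J : ℕ} (hx : 0 < x) (hZ : 0 ≤ Z)
    (hcd : Feasible x Z c d n) (hval : 0 ≤ val x Z δ c d n) (hMJ : M + n ≤ J)
    (a f : ℕ → ℝ) (ha : ∀ i < J, 0 < a i) (hf : ∀ i < J, 0 < f i)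
    (hsum : ∀ i < J, a i + ∑ l ∈ Ico i J, f l ≤ 1 + δ) (k : ℕ → ℕ) (hk : Monotone k) (p : ℕ) :
    val x Z δ c d n * ((1 - x) * ∑ m ∈ (range M).filter (fun m => p ≤ k m), x ^ m) ≤
      ∑ j ∈ (range J).filter (fun j => p ≤ k j), x ^ j * (1 / a j + Z / f j) := by
  have hnn : ∀ j ∈ (range J).filter (fun j => p ≤ k j), 0 ≤ x ^ j * (1 / a j + Z / f j) := by
    intro j hj
    rw [mem_filter, mem_range] at hj
    have h1 := ha j hj.1
    have h2 := hf j hj.1
    positivity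
  by_cases hex : ∃ m, m < M ∧ p ≤ k m
  · classical
    set m0 := Nat.find hex with hm0
    obtain ⟨h1, h2⟩ := Nat.find_spec hex
    rw [← hm0] at h1 h2
    have hmin : ∀ m, m < M → p ≤ k m → m0 ≤ m := fun m h3 h4 => Nat.find_min' hex ⟨h3, h4⟩
    have e1 : (range M).filter (fun m => p ≤ k m) = Ico m0 M := by
      ext m
      rw [mem_filter, mem_range, mem_Ico]
      constructor
      · rintro ⟨h3, h4⟩; exact ⟨hmin m h3 h4, h3⟩
      · rintro ⟨h3, h4⟩; exact ⟨h4, h2.trans (hk h3)⟩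
    rw [e1]
    have e2 := geom_Ico hx m0 M h1.le
    refine (mul_le_mul_of_nonneg_left e2 hval).trans ?_
    have e3 := cert (δ := δ) hx hZ hcd (fun s => a (m0 + s)) (fun s => f (m0 + s))
      (fun s hs => ha _ (by omega)) (fun s hs => hf _ (by omega)) (by
        intro s hs
        refine le_trans ?_ (hsum (m0 + s) (by omega))
        refine add_le_add le_rfl ?_
        rw [Finset.sum_Ico_add (fun l => f l) s (n + 1) m0]
        refine Finset.sum_le_sum_of_subset_of_nonneg ?_ ?_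
        · intro l hl
          rw [mem_Ico] at hl ⊢
          omega
        · intro l hl _
          rw [mem_Ico] at hl
          exact (hf l hl.2).le)
    have e4 : val x Z δ c d n * x ^ m0 ≤
        ∑ s ∈ range (n + 1), x ^ (m0 + s) * (1 / a (m0 + s) + Z / f (m0 + s)) := by
      rw [mul_comm]
      refine (mul_le_mul_of_nonneg_left e3 (pow_pos hx m0).le).trans (le_of_eq ?_)
      rw [Finset.mul_sum]
      refine Finset.sum_congr rfl fun s _ => ?_
      rw [pow_add]; ring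
    refine e4.trans ?_
    have e5 : ∑ s ∈ range (n + 1), x ^ (m0 + s) * (1 / a (m0 + s) + Z / f (m0 + s)) =
        ∑ j ∈ Ico m0 (m0 + (n + 1)), x ^ j * (1 / a j + Z / f j) := by
      rw [Finset.sum_Ico_eq_sum_range, Nat.add_sub_cancel_left]
    rw [e5]
    refine Finset.sum_le_sum_of_subset_of_nonneg ?_ fun j hj _ => hnn j hj
    intro j hj
    rw [mem_Ico] at hj
    rw [mem_filter, mem_range]
    exact ⟨by omega, h2.trans (hk hj.1)⟩
  · have e1 : (range M).filter (fun m => p ≤ k m) = ∅ := by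
      rw [Finset.filter_eq_empty_iff]
      intro m hm h
      exact hex ⟨m, mem_range.1 hm, h⟩
    rw [e1, sum_empty, mul_zero, mul_zero]
    exact Finset.sum_nonneg hnn

end Vale.Agent.P015.H10
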