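import Vale.Agent.P015.Cx.Core

/-! Nested repetitions with growing multiplicities. -/

namespace Vale.Agent.P015.H10

open Finset Vale.Agent.P015 Vale.Agent.P015.Cx
open scoped Pointwise

/-- all differences of elements of `X` have modulus at most `M` -/
def Diam (X : Finset GaussianInt) (M : ℝ) : Prop :=
  ∀ z ∈ X, ∀ w ∈ X, ((z - w).norm : ℝ) ≤ M ^ 2

theorem disp_card {γ : ℕ → GaussianInt} {N n k : ℕ} (hn : n + k ≤ N)
    (hinj : ∀ a ≤ N, ∀ b ≤ N, γ a = γ b → a = b) : (disp γ n k).card = k + 1 := by
  rw [disp, Finset.card_image_of_injOn, card_range]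
  intro a ha b hb hab
  rw [mem_coe, mem_range] at ha hb
  have h1 : γ (n + a) = γ (n + b) := by
    have : γ (n + a) - γ n = γ (n + b) - γ n := hab
    exact sub_left_injective this
  have := hinj (n + a) (by omega) (n + b) (by omega) h1
  omega

theorem diam_image {γ : ℕ → GaussianInt} {N n k : ℕ} {M : ℝ} (T : Finset ℕ)
    (hT : ∀ t ∈ T, t ≤ k) (hn : n + k ≤ N)
    (hM : ∀ a b, a ≤ b → b ≤ N → b - a ≤ k → ((γ b - γ a).norm : ℝ) ≤ M ^ 2) :
    Diam (T.image (fun t => γ (n + t) - γ n)) M := by
  intro z hz w hw
  rw [mem_image] at hz hw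
  obtain ⟨a, ha, rfl⟩ := hz
  obtain ⟨b, hb, rfl⟩ := hw
  have e : γ (n + a) - γ n - (γ (n + b) - γ n) = γ (n + a) - γ (n + b) := by ring
  rw [e]
  have ha' := hT a ha
  have hb' := hT b hb
  rcases le_total a b with hab | hab
  · rw [norm_sub_comm']
    exact hM (n + a) (n + b) (by omega) (by omega) (by omega)
  · exact hM (n + b) (n + a) (by omega) (by omega) (by omega)

theorem chain2 (γ : ℕ → GaussianInt) (N J : ℕ) (k B : ℕ → ℕ) (M : ℕ → ℝ)
    (hk0 : 1 ≤ k 0) (hk : ∀ j < J, k (j + 1) = k j + k j * B j)
    (hB : ∀ j < J, ∀ n m : ℕ, n + m + k j ≤ N →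
      ((Finset.range (m + 1)).image (fun t => word γ (k j) (n + t))).card ≤ B j)
    (hinj : ∀ a ≤ N, ∀ b ≤ N, γ a = γ b → a = b)
    (hM : ∀ j ≤ J, ∀ a b, a ≤ b → b ≤ N → b - a ≤ k j →
      ((γ b - γ a).norm : ℝ) ≤ M j ^ 2) :
    ∀ j ≤ J, ∀ n, n + k j ≤ N → ∃ A X : ℕ → Finset GaussianInt,
      (∀ i ≤ j, k i ≤ (A i).card ∧ Diam (A i) (M i)) ∧
      (∀ i < j, k i ≤ (X i).card ∧ Diam (X i) (M (i + 1))) ∧
      ∀ i ≤ j, ∀ p : ℕ, p.Prime → ∀ r : ZMod p,
        min p (((A i).image (phi p r)).card +
          ∑ l ∈ Ico i j, (((X l).image (phi p r)).card - 1)) ≤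
          ((disp γ n (k j)).image (phi p r)).card := by
  have hkpos : ∀ j ≤ J, 1 ≤ k j := by
    intro j
    induction j with
    | zero => intro _; exact hk0
    | succ j ih =>
      intro hj
      have h1 := ih (by omega)
      rw [hk j (by omega)]
      exact h1.trans (Nat.le_add_right _ _)
  intro j
  induction j with
  | zero =>
    intro _ n hn
    refine ⟨fun _ => disp γ n (k 0), fun _ => ∅, fun i hi => ?_, fun i hi => absurd hi (by omega),
      fun i hi p hp r => ?_⟩
    · obtain rfl : i = 0 := by omega
      refine ⟨by rw [disp_card hn hinj]; omega, ?_⟩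
      exact diam_image _ (fun t ht => by rw [mem_range] at ht; omega) hn (hM 0 (Nat.zero_le _))
    · obtain rfl : i = 0 := by omega
      rw [Ico_self, sum_empty, add_zero]
      exact min_le_right _ _
  | succ j ih =>
    intro hj n hn
    have hjJ : j < J := by omega
    have hkj := hk j hjJ
    have hkp := hkpos j hjJ.le
    -- pigeonhole
    obtain ⟨y, hy, hcard⟩ := Finset.exists_le_card_fiber_of_mul_le_card_of_maps_to
      (s := Finset.range (k j * B j + 1))
      (t := (Finset.range (k j * B j + 1)).image (fun t => word γ (k j) (n + t)))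
      (f := fun t => word γ (k j) (n + t)) (n := k j)
      (fun a ha => mem_image_of_mem _ ha) ⟨_, mem_image_of_mem _ (mem_range.2 (Nat.succ_pos _))⟩
      (by
        rw [card_range]
        have := hB j hjJ n (k j * B j) (by omega)
        calc _ ≤ B j * k j := Nat.mul_le_mul_right _ this
          _ ≤ k j * B j + 1 := by rw [mul_comm]; omega)
    set T := (Finset.range (k j * B j + 1)).filter (fun t => word γ (k j) (n + t) = y) with hT
    have hTne : T.Nonempty := by
      rw [← Finset.card_pos]; omega
    obtain ⟨t0, ht0⟩ := hTne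
    have hmem : ∀ t ∈ T, t ≤ k j * B j ∧ word γ (k j) (n + t) = y := by
      intro t ht
      rw [hT, mem_filter, mem_range] at ht
      exact ⟨by omega, ht.2⟩
    obtain ⟨A, X, hA1, hX1, hX2⟩ := ih (by omega) (n + t0) (by have := (hmem t0 ht0).1; omega)
    set Y : Finset GaussianInt := T.image (fun t => γ (n + t) - γ n) with hY
    have hYcard : Y.card = T.card := by
      rw [hY]
      refine Finset.card_image_of_injOn ?_
      intro a ha b hb hab
      have h1 : γ (n + a) = γ (n + b) := by
        have : γ (n + a) - γ n = γ (n + b) - γ n := hab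
        exact sub_left_injective this
      have := hinj (n + a) (by have := (hmem a ha).1; omega) (n + b)
        (by have := (hmem b hb).1; omega) h1
      omega
    refine ⟨fun i => if i = j + 1 then disp γ n (k (j + 1)) else A i,
      fun i => if i = j then Y else X i, ?_, ?_, ?_⟩
    · intro i hi
      by_cases hij : i = j + 1
      · subst hij
        simp only [if_true]
        refine ⟨by rw [disp_card hn hinj]; omega, ?_⟩
        exact diam_image _ (fun t ht => by rw [mem_range] at ht; omega) hn (hM _ hj)
      · simp only [if_neg hij]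
        exact hA1 i (by omega)
    · intro i hi
      by_cases hij : i = j
      · subst hij
        simp only [if_true]
        refine ⟨by rw [hYcard]; exact hcard, ?_⟩
        exact diam_image (k := k (i + 1)) _ (fun t ht => by have := (hmem t ht).1; omega) hn
          (hM _ hj)
      · simp only [if_neg hij]
        exact hX1 i (by omega)
    · intro i hi p hp r
      by_cases hij : i = j + 1
      · subst hij
        simp only [if_true]
        rw [Ico_self, sum_empty, add_zero]
        exact min_le_right _ _
      simp only [if_neg hij]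
      have hij' : i ≤ j := by omega
      rw [Finset.sum_Ico_succ_top hij']
      have hsum : ∑ l ∈ Ico i j, ((((if l = j then Y else X l) : Finset GaussianInt).image
          (phi p r)).card - 1) = ∑ l ∈ Ico i j, (((X l).image (phi p r)).card - 1) := by
        refine Finset.sum_congr rfl fun l hl => ?_
        rw [mem_Ico] at hl
        rw [if_neg (by omega)]
      rw [hsum]
      simp only [if_true]
      have h1 := hX2 i hij' p hp r
      have hsub : Y.image (phi p r) + (disp γ (n + t0) (k j)).image (phi p r) ⊆
          (disp γ n (k (j + 1))).image (phi p r) := by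
        intro c hc
        rw [Finset.mem_add] at hc
        obtain ⟨u, hu, v, hv, rfl⟩ := hc
        rw [mem_image] at hu hv
        obtain ⟨z, hz, rfl⟩ := hu
        obtain ⟨w, hw, rfl⟩ := hv
        rw [hY, mem_image] at hz
        obtain ⟨a, ha, rfl⟩ := hz
        rw [disp, mem_image] at hw
        obtain ⟨t, ht, rfl⟩ := hw
        rw [mem_range] at ht
        rw [mem_image]
        refine ⟨γ (n + (a + t)) - γ n, ?_, ?_⟩
        · rw [disp, mem_image]
          refine ⟨a + t, ?_, rfl⟩
          rw [mem_range, hkj]
          have := (hmem a ha).1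
          omega
        · have h2 : word γ (k j) (n + a) = word γ (k j) (n + t0) := by
            rw [(hmem a ha).2, (hmem t0 ht0).2]
          have h3 := disp_eq_of_word_eq h2 (t := t) (by omega)
          rw [← h3, ← phi_add]
          congr 1
          rw [← add_assoc]; ring
      have hYne : (Y.image (phi p r)).Nonempty := by
        rw [image_nonempty, hY, image_nonempty]
        exact ⟨t0, ht0⟩
      have hDne : ((disp γ (n + t0) (k j)).image (phi p r)).Nonempty := by
        rw [image_nonempty, disp, image_nonempty]
        exact ⟨0, by simp⟩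
      have h4 := ZMod.cauchy_davenport hp hYne hDne
      have h5 := Finset.card_le_card hsub
      have h6 := Finset.card_pos.2 hYne
      have h7 := Finset.card_pos.2 hDne
      omega

end Vale.Agent.P015.H10
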