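import Vale.Agent.P015.H10.Cert

/-! The finite theorem with certificates: walks with few step words are bounded. -/

namespace Vale.Agent.P015.H10

open Finset Vale.Agent.P015 Vale.Agent.P015.Cx Filter Topology

/-- the lengths -/
noncomputable def kk (K C : ℝ) (Q : ℕ) : ℕ → ℕ
  | 0 => Q
  | j + 1 => kk K C Q j + kk K C Q j * wb K C (kk K C Q j)

theorem kk_succ (K C : ℝ) (Q j : ℕ) :
    kk K C Q (j + 1) = kk K C Q j + kk K C Q j * wb K C (kk K C Q j) := rfl

theorem kk_mono {K C : ℝ} {Q : ℕ} : Monotone (kk K C Q) :=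
  monotone_nat_of_le_succ fun j => by rw [kk_succ]; omega

theorem one_le_kk {K C : ℝ} {Q : ℕ} (hQ : 1 ≤ Q) (j : ℕ) : 1 ≤ kk K C Q j :=
  hQ.trans (kk_mono (Nat.zero_le j))

theorem log_kk_upper {K C : ℝ} (hK : 1 ≤ K) (hC : 1 ≤ C) {Q : ℕ} (hQ : 1 ≤ Q) (j : ℕ) :
    Real.log (kk K C Q j) + Real.log (K + 2) ≤
      (C + 1) ^ j * (Real.log Q + Real.log (K + 2)) := by
  have hU : 0 ≤ Real.log (K + 2) := Real.log_nonneg (by linarith)
  induction j with
  | zero => simp [kk]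
  | succ j ih =>
    set y : ℕ := kk K C Q j with hy
    have hy1 : (1 : ℝ) ≤ y := by exact_mod_cast one_le_kk hQ j
    have hy0 : (0 : ℝ) < y := by linarith
    have hL : 0 ≤ Real.log y := Real.log_nonneg hy1
    have h1 := wb_le (C := C) hK y
    have h2 : (1 : ℝ) ≤ (y : ℝ) ^ C := Real.one_le_rpow hy1 (by linarith)
    have h3 : ((kk K C Q (j + 1) : ℕ) : ℝ) ≤ (K + 2) * (y : ℝ) ^ (C + 1) := by
      rw [kk_succ, ← hy, Real.rpow_add hy0, Real.rpow_one]
      push_cast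
      nlinarith [mul_le_mul_of_nonneg_left h1 hy0.le]
    have h4 : (0 : ℝ) < ((kk K C Q (j + 1) : ℕ) : ℝ) := by
      exact_mod_cast one_le_kk hQ (j + 1)
    have h5 := Real.log_le_log h4 h3
    rw [Real.log_mul (by linarith) (by positivity), Real.log_rpow hy0] at h5
    rw [pow_succ]
    nlinarith [mul_le_mul_of_nonneg_right ih (show 0 ≤ C + 1 by linarith),
      mul_nonneg (show 0 ≤ C - 1 by linarith) hU]

theorem log_kk_lower {K C : ℝ} (hK : 1 ≤ K) (hC : 1 ≤ C) {Q : ℕ} (hQ : 1 ≤ Q) (j : ℕ) :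
    (C + 1) ^ j * Real.log Q ≤ Real.log (kk K C Q j) := by
  induction j with
  | zero => simp [kk]
  | succ j ih =>
    set y : ℕ := kk K C Q j with hy
    have hyn : 1 ≤ y := one_le_kk hQ j
    have hy1 : (1 : ℝ) ≤ y := by exact_mod_cast hyn
    have hy0 : (0 : ℝ) < y := by linarith
    have hL : 0 ≤ Real.log y := Real.log_nonneg hy1
    have h2 : (1 : ℝ) ≤ (y : ℝ) ^ C := Real.one_le_rpow hy1 (by linarith)
    have h1 : (y : ℝ) ^ C ≤ (wb K C y : ℝ) := by
      rw [wb, if_neg (by omega)]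
      refine le_trans ?_ (Nat.le_ceil _)
      nlinarith
    have h3 : (y : ℝ) ^ (C + 1) ≤ ((kk K C Q (j + 1) : ℕ) : ℝ) := by
      rw [kk_succ, ← hy, Real.rpow_add hy0, Real.rpow_one]
      push_cast
      nlinarith [mul_le_mul_of_nonneg_left h1 hy0.le]
    have h5 := Real.log_le_log (by positivity) h3
    rw [Real.log_rpow hy0] at h5
    rw [pow_succ]
    nlinarith [mul_le_mul_of_nonneg_right ih (show 0 ≤ C + 1 by linarith)]

/-- larger sieve at one level -/
theorem sieve_level {K β : ℝ} (hK : 1 ≤ K) (hβ : 0 < β) {P0 y y' : ℕ} (hy : 1 ≤ y) (hy' : 1 ≤ y')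
    (X : Finset GaussianInt) (hX : y ≤ X.card) (hd : Diam X (K * (y' : ℝ) ^ β)) :
    ∑ p ∈ primesMod P0 y, ∑ b : Bool,
      Real.log p / ((X.image (phi p (root p b))).card : ℝ) ≤
      2 * Real.log 4 + 2 * Real.log K + 2 * β * Real.log y' := by
  have hy1 : (1 : ℝ) ≤ y := by exact_mod_cast hy
  have hy1' : (1 : ℝ) ≤ y' := by exact_mod_cast hy'
  have hXne : X.Nonempty := by rw [← Finset.card_pos]; omega
  have hM : 1 ≤ K * (y' : ℝ) ^ β := by
    have h2 : (1 : ℝ) ≤ (y' : ℝ) ^ β := Real.one_le_rpow hy1' hβ.le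
    nlinarith
  have h0 := larger_sieve (primesMod P0 y) (fun p hp => (mem_primesMod.1 hp).2) X hXne hM hd
  refine h0.trans ?_
  have hcard : (y : ℝ) ≤ X.card := by exact_mod_cast hX
  have hl4 : 0 < Real.log 4 := Real.log_pos (by norm_num)
  have h1 : ∑ p ∈ primesMod P0 y, 2 * Real.log p ≤ 2 * (Real.log 4 * y) := by
    rw [← Finset.mul_sum]
    have h2 : ∑ p ∈ primesMod P0 y, Real.log p ≤ th y := by
      unfold th
      exact sum_primesMod_mono (Nat.zero_le _) le_rfl _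
        (fun p => Real.log_natCast_nonneg p)
    have h3 := th_upper y
    linarith
  have h4 : (∑ p ∈ primesMod P0 y, 2 * Real.log p) / X.card ≤ 2 * Real.log 4 := by
    rw [div_le_iff₀ (by linarith)]
    nlinarith
  have h5 : Real.log (K * (y' : ℝ) ^ β) = Real.log K + β * Real.log y' := by
    rw [Real.log_mul (by linarith) (by positivity), Real.log_rpow (by linarith)]
  rw [h5]
  linarith

theorem exch (P : Finset ℕ) (M : ℕ) (k : ℕ → ℕ) (F : ℕ → ℕ → ℝ) :
    ∑ p ∈ P, ∑ m ∈ (range M).filter (fun m => p ≤ k m), F p m =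
      ∑ m ∈ range M, ∑ p ∈ P.filter (fun p => p ≤ k m), F p m := by
  simp only [Finset.sum_filter]
  exact Finset.sum_comm

theorem filter_primesMod {P0 y y' : ℕ} (h : y ≤ y') :
    (primesMod P0 y').filter (fun p => p ≤ y) = primesMod P0 y := by
  ext p
  rw [mem_filter, mem_primesMod, mem_primesMod]
  constructor
  · rintro ⟨⟨⟨h1, h2⟩, h3⟩, h4⟩; exact ⟨⟨h1, h4⟩, h3⟩
  · rintro ⟨⟨h1, h2⟩, h3⟩; exact ⟨⟨⟨h1, h2.trans h⟩, h3⟩, h2⟩

/-- the chain with the lengths `kk` -/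
theorem chain_kk {C β K : ℝ} (hβ : 0 < β) (hK : 1 ≤ K) (J Q : ℕ) (hQ : 1 ≤ Q)
    (γ : ℕ → GaussianInt)
    (hinj : ∀ a ≤ kk K C Q J, ∀ b ≤ kk K C Q J, γ a = γ b → a = b)
    (hdisp : ∀ a b, a ≤ b → b ≤ kk K C Q J →
      ((γ b - γ a).norm : ℝ) ≤ (K * ((b - a : ℕ) : ℝ) ^ β) ^ 2)
    (hcomp : ∀ k, 1 ≤ k → k ≤ kk K C Q J →
        (((range (kk K C Q J + 1 - k)).image (word γ k)).card : ℝ) ≤ K * (k : ℝ) ^ C) :
    ∃ A X : ℕ → Finset GaussianInt,
      (∀ i ≤ J, kk K C Q i ≤ (A i).card ∧ Diam (A i) (K * (kk K C Q i : ℝ) ^ β)) ∧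
      (∀ i < J, kk K C Q i ≤ (X i).card ∧ Diam (X i) (K * (kk K C Q (i + 1) : ℝ) ^ β)) ∧
      ∀ i ≤ J, ∀ p : ℕ, p.Prime → ∀ r : ZMod p,
        min p (((A i).image (phi p r)).card +
          ∑ l ∈ Ico i J, (((X l).image (phi p r)).card - 1)) ≤
          ((disp γ 0 (kk K C Q J)).image (phi p r)).card := by
  refine chain2 γ (kk K C Q J) J (kk K C Q) (fun j => wb K C (kk K C Q j))
    (fun i => K * (kk K C Q i : ℝ) ^ β) hQ (fun j _ => rfl) ?_ hinj ?_ J le_rfl 0
    (by rw [zero_add])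
  · intro j hj n m hnm
    have h1 : 1 ≤ kk K C Q j := one_le_kk hQ j
    have h2 : kk K C Q j ≤ kk K C Q J := kk_mono hj.le
    have h3 := hcomp _ h1 h2
    have hsub : (Finset.range (m + 1)).image (fun t => word γ (kk K C Q j) (n + t)) ⊆
        (range (kk K C Q J + 1 - kk K C Q j)).image (word γ (kk K C Q j)) := by
      intro y hy
      rw [mem_image] at hy ⊢
      obtain ⟨a, ha, rfl⟩ := hy
      rw [mem_range] at ha
      exact ⟨n + a, by rw [mem_range]; omega, rfl⟩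
    refine (Finset.card_le_card hsub).trans ?_
    have h5 : kk K C Q j ≠ 0 := by omega
    simp only [wb, if_neg h5]
    have h4 := h3.trans (Nat.le_ceil _)
    exact_mod_cast h4
  · intro j hj a b hab hb hba
    refine (hdisp a b hab hb).trans ?_
    have h1 : ((b - a : ℕ) : ℝ) ≤ (kk K C Q j : ℝ) := by exact_mod_cast hba
    have h2 := Real.rpow_le_rpow (Nat.cast_nonneg _) h1 hβ.le
    have h3 : 0 ≤ ((b - a : ℕ) : ℝ) ^ β := by positivity
    refine pow_le_pow_left₀ (by positivity) ?_ 2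
    exact mul_le_mul_of_nonneg_left h2 (by linarith)

/-- cardinalities modulo one prime -/
theorem sum_card_le2 {p i J : ℕ} (r : ZMod p) (a : ℕ) (X : ℕ → Finset GaussianInt)
    (hXne : ∀ l ∈ Ico i J, (X l).Nonempty)
    (h : a + ∑ l ∈ Ico i J, (((X l).image (phi p r)).card - 1) < p) :
    (a : ℝ) + ∑ l ∈ Ico i J, (((X l).image (phi p r)).card : ℝ) ≤ p + J := by
  have h4 : ∑ l ∈ Ico i J, ((X l).image (phi p r)).card =
      ∑ l ∈ Ico i J, (((X l).image (phi p r)).card - 1) + (J - i) := by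
    have : ∀ l ∈ Ico i J, ((X l).image (phi p r)).card =
        (((X l).image (phi p r)).card - 1) + 1 := by
      intro l hl
      have := ((hXne l hl).image (phi p r)).card_pos
      omega
    rw [Finset.sum_congr rfl this, Finset.sum_add_distrib]
    simp
  have h5 : a + ∑ l ∈ Ico i J, ((X l).image (phi p r)).card ≤ p + J := by omega
  exact_mod_cast h5

theorem left_eq (P : Finset ℕ) (M : ℕ) (k : ℕ → ℕ) (w : ℕ → ℝ) (v x : ℝ) :
    ∑ p ∈ P, ∑ _b : Bool, w p * (v *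
        ((1 - x) * ∑ m ∈ (range M).filter (fun m => p ≤ k m), x ^ m)) =
      v * ((1 - x) * ∑ m ∈ range M, x ^ m * ∑ p ∈ P.filter (fun p => p ≤ k m), 2 * w p) := by
  have e1 : ∀ p ∈ P, ∑ _b : Bool, w p * (v *
      ((1 - x) * ∑ m ∈ (range M).filter (fun m => p ≤ k m), x ^ m)) =
      ∑ m ∈ (range M).filter (fun m => p ≤ k m), v * ((1 - x) * (x ^ m * (2 * w p))) := by
    intro p _
    rw [Fintype.sum_bool, ← Finset.mul_sum, ← Finset.mul_sum, ← Finset.sum_mul]
    ring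
  rw [Finset.sum_congr rfl e1, exch, Finset.mul_sum, Finset.mul_sum]
  refine Finset.sum_congr rfl fun m _ => ?_
  rw [Finset.mul_sum, Finset.mul_sum, Finset.mul_sum]

theorem right_eq (P : Finset ℕ) (J : ℕ) (k : ℕ → ℕ) (x Z : ℝ) (hP : ∀ p ∈ P, (0 : ℝ) < p)
    (u v : ℕ → Bool → ℕ → ℝ) (hu : ∀ p ∈ P, ∀ b, ∀ j < J, 0 < u p b j)
    (hv : ∀ p ∈ P, ∀ b, ∀ j < J, 0 < v p b j) :
    ∑ p ∈ P, ∑ b : Bool, (Real.log p / p) *
        ∑ j ∈ (range J).filter (fun j => p ≤ k j),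
        x ^ j * (1 / (u p b j / p) + Z / (v p b j / p)) =
      ∑ j ∈ range J, x ^ j * (∑ p ∈ P.filter (fun p => p ≤ k j), ∑ b : Bool,
          Real.log p / u p b j +
        Z * ∑ p ∈ P.filter (fun p => p ≤ k j), ∑ b : Bool, Real.log p / v p b j) := by
  have e1 : ∀ p ∈ P, ∑ b : Bool, (Real.log p / p) *
      ∑ j ∈ (range J).filter (fun j => p ≤ k j),
      x ^ j * (1 / (u p b j / p) + Z / (v p b j / p)) =
      ∑ j ∈ (range J).filter (fun j => p ≤ k j), x ^ j * ((∑ b : Bool,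
        Real.log p / u p b j) + Z * ∑ b : Bool, Real.log p / v p b j) := by
    intro p hp
    have hp0 := hP p hp
    rw [Fintype.sum_bool, Finset.mul_sum, Finset.mul_sum, ← Finset.sum_add_distrib]
    refine Finset.sum_congr rfl fun j hj => ?_
    rw [mem_filter, mem_range] at hj
    rw [Fintype.sum_bool, Fintype.sum_bool]
    have q1 : ∀ b, (Real.log p / p) * (1 / (u p b j / p)) = Real.log p / u p b j := by
      intro b
      have h2 := hu p hp b j hj.1
      field_simp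
    have q2 : ∀ b, (Real.log p / p) * (Z / (v p b j / p)) = Z * (Real.log p / v p b j) := by
      intro b
      have h2 := hv p hp b j hj.1
      field_simp
    rw [← q1 true, ← q1 false, mul_add Z, ← q2 true, ← q2 false]
    ring
  rw [Finset.sum_congr rfl e1, exch]
  refine Finset.sum_congr rfl fun j _ => ?_
  rw [Finset.mul_sum (s := P.filter (fun p => p ≤ k j)) (a := Z),
    ← Finset.sum_add_distrib, Finset.mul_sum]

/-- the bound at one level -/
theorem level_bound {x Z C β K : ℝ} (hC : 1 ≤ C) (hβ : 0 < β) (hK : 1 ≤ K)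
    (hx : x = 1 / (C + 1)) (hZ : 0 ≤ Z) {Q j : ℕ} (hQ : 1 ≤ Q) {S1 S2 : ℝ}
    (s1 : S1 ≤ 2 * Real.log 4 + 2 * Real.log K + 2 * β * Real.log (kk K C Q j))
    (s2 : S2 ≤ 2 * Real.log 4 + 2 * Real.log K + 2 * β * Real.log (kk K C Q (j + 1))) :
    x ^ j * (S1 + Z * S2) ≤ 2 * β * (1 + Z * (C + 1)) * (Real.log Q + Real.log (K + 2)) +
        (1 + Z) * (2 * Real.log 4 + 2 * Real.log K) := by
  have hx0 : 0 < x := by rw [hx]; positivity
  have hxC : x * (C + 1) = 1 := by rw [hx]; field_simp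
  have hx1 : x ≤ 1 := by nlinarith
  have hU : 0 ≤ Real.log (K + 2) := Real.log_nonneg (by linarith)
  have hl4 : 0 < Real.log 4 := Real.log_pos (by norm_num)
  have hlK : 0 ≤ Real.log K := Real.log_nonneg hK
  have u1 := log_kk_upper hK hC hQ j
  have u2 := log_kk_upper hK hC hQ (j + 1)
  have hxj : 0 < x ^ j := pow_pos hx0 j
  have hxj1 : x ^ j ≤ 1 := pow_le_one₀ hx0.le hx1
  have hxCj : x ^ j * (C + 1) ^ j = 1 := by rw [← mul_pow, hxC, one_pow]
  set T := Real.log Q + Real.log (K + 2) with hT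
  have hT0 : 0 ≤ T := add_nonneg (Real.log_natCast_nonneg Q) hU
  have v1 : x ^ j * Real.log (kk K C Q j) ≤ T := by
    have h1 := mul_le_mul_of_nonneg_left u1 hxj.le
    rw [← mul_assoc, hxCj, one_mul, mul_add] at h1
    have h2 := mul_nonneg hxj.le hU
    linarith
  have v2 : x ^ j * Real.log (kk K C Q (j + 1)) ≤ (C + 1) * T := by
    have h1 := mul_le_mul_of_nonneg_left u2 hxj.le
    rw [← mul_assoc, pow_succ, ← mul_assoc, hxCj, one_mul, mul_add] at h1
    have h2 := mul_nonneg hxj.le hU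
    linarith
  have h3 : x ^ j * (2 * Real.log 4 + 2 * Real.log K) ≤ 2 * Real.log 4 + 2 * Real.log K :=
    mul_le_of_le_one_left (by positivity) hxj1
  have w1 : x ^ j * S1 ≤ 2 * Real.log 4 + 2 * Real.log K + 2 * β * T := by
    refine (mul_le_mul_of_nonneg_left s1 hxj.le).trans ?_
    have h4 := mul_le_mul_of_nonneg_left v1 (show 0 ≤ 2 * β by positivity)
    calc _ = x ^ j * (2 * Real.log 4 + 2 * Real.log K) +
          2 * β * (x ^ j * Real.log (kk K C Q j)) := by ring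
      _ ≤ _ := add_le_add h3 h4
  have w2 : x ^ j * S2 ≤ 2 * Real.log 4 + 2 * Real.log K + 2 * β * ((C + 1) * T) := by
    refine (mul_le_mul_of_nonneg_left s2 hxj.le).trans ?_
    have h4 := mul_le_mul_of_nonneg_left v2 (show 0 ≤ 2 * β by positivity)
    calc _ = x ^ j * (2 * Real.log 4 + 2 * Real.log K) +
          2 * β * (x ^ j * Real.log (kk K C Q (j + 1))) := by ring
      _ ≤ _ := add_le_add h3 h4
  have w3 := mul_le_mul_of_nonneg_left w2 hZ
  calc _ = x ^ j * S1 + Z * (x ^ j * S2) := by ring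
    _ ≤ _ := add_le_add w1 w3
    _ = _ := by ring

/-- densities modulo one prime -/
theorem density_bound {N P0 J p : ℕ} {δ : ℝ} (hP0 : (J : ℝ) ≤ δ * P0) (hδ : 0 ≤ δ)
    {γ : ℕ → GaussianInt} (hprime : Misses γ N) (A X : ℕ → Finset GaussianInt)
    (hXne : ∀ i < J, (X i).Nonempty)
    (hAX : ∀ i ≤ J, ∀ p : ℕ, p.Prime → ∀ r : ZMod p,
        min p (((A i).image (phi p r)).card +
          ∑ l ∈ Ico i J, (((X l).image (phi p r)).card - 1)) ≤
          ((disp γ 0 N).image (phi p r)).card)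
    (hp : p ∈ primesMod P0 N) (b : Bool) {i : ℕ} (hi : i < J) :
    (((A i).image (phi p (root p b))).card : ℝ) / p +
      ∑ l ∈ Ico i J, (((X l).image (phi p (root p b))).card : ℝ) / p ≤ 1 + δ := by
  have h0 := mem_primesMod.1 hp
  have h1 := card_image_disp_lt h0.2.1 h0.2.2 h0.1.2 hprime b
  have h2 := (hAX i hi.le p h0.2.1 (root p b)).trans_lt h1
  rw [min_lt_iff] at h2
  have h3 := h2.resolve_left (lt_irrefl _)
  have h4 := sum_card_le2 (root p b) _ X (fun l hl => hXne l (mem_Ico.1 hl).2) h3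
  have hp0 : (0 : ℝ) < p := by exact_mod_cast h0.2.1.pos
  rw [← Finset.sum_div, ← add_div, div_le_iff₀ hp0]
  have h5 : (P0 : ℝ) ≤ p := by exact_mod_cast h0.1.1.le
  nlinarith

/-- The inequality for one `Q`. -/
theorem one_scale2 {x Z δ C β K : ℝ} {c d : ℕ → ℝ} {n M J Q P0 : ℕ}
    (hC : 1 ≤ C) (hβ : 0 < β) (hK : 1 ≤ K) (hx : x = 1 / (C + 1)) (hZ : 0 ≤ Z)
    (hcd : Feasible x Z c d n) (hval : 0 ≤ val x Z δ c d n) (hMJ : M + n ≤ J)
    (hQ : 1 ≤ Q) (hP0 : (J : ℝ) ≤ δ * P0) (hδ : 0 ≤ δ)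
    (γ : ℕ → GaussianInt)
    (hinj : ∀ a ≤ kk K C Q J, ∀ b ≤ kk K C Q J, γ a = γ b → a = b)
    (hprime : Misses γ (kk K C Q J))
    (hdisp : ∀ a b, a ≤ b → b ≤ kk K C Q J →
      ((γ b - γ a).norm : ℝ) ≤ (K * ((b - a : ℕ) : ℝ) ^ β) ^ 2)
    (hcomp : ∀ k, 1 ≤ k → k ≤ kk K C Q J →
        (((range (kk K C Q J + 1 - k)).image (word γ k)).card : ℝ) ≤ K * (k : ℝ) ^ C) :
    val x Z δ c d n * ((1 - x) * ∑ m ∈ range M, x ^ m *
        ∑ p ∈ primesMod P0 (kk K C Q m), 2 * (Real.log p / p)) ≤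
      J * (2 * β * (1 + Z * (C + 1)) * (Real.log Q + Real.log (K + 2)) +
        (1 + Z) * (2 * Real.log 4 + 2 * Real.log K)) := by
  obtain ⟨A, X, hA, hX, hAX⟩ := chain_kk hβ hK J Q hQ γ hinj hdisp hcomp
  have hx0 : 0 < x := by rw [hx]; positivity
  have hk1 : ∀ j, 1 ≤ kk K C Q j := fun j => one_le_kk hQ j
  have hAne : ∀ i ≤ J, (A i).Nonempty := fun i hi => by
    rw [← Finset.card_pos]; exact (hk1 i).trans (hA i hi).1
  have hXne : ∀ i < J, (X i).Nonempty := fun i hi => by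
    rw [← Finset.card_pos]; exact (hk1 i).trans (hX i hi).1
  have hpp : ∀ p ∈ primesMod P0 (kk K C Q J), (0 : ℝ) < p := fun p hp => by
    exact_mod_cast (mem_primesMod.1 hp).2.1.pos
  have hu : ∀ p ∈ primesMod P0 (kk K C Q J), ∀ b, ∀ j < J,
      0 < (((A j).image (phi p (root p b))).card : ℝ) := fun p _ b j hj => by
    exact_mod_cast ((hAne j hj.le).image _).card_pos
  have hv : ∀ p ∈ primesMod P0 (kk K C Q J), ∀ b, ∀ j < J,
      0 < (((X j).image (phi p (root p b))).card : ℝ) := fun p _ b j hj => by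
    exact_mod_cast ((hXne j hj).image _).card_pos
  have hsumall : ∑ p ∈ primesMod P0 (kk K C Q J), ∑ b : Bool,
      (Real.log p / p) * (val x Z δ c d n *
        ((1 - x) * ∑ m ∈ (range M).filter (fun m => p ≤ kk K C Q m), x ^ m)) ≤
      ∑ p ∈ primesMod P0 (kk K C Q J), ∑ b : Bool, (Real.log p / p) *
        ∑ j ∈ (range J).filter (fun j => p ≤ kk K C Q j),
        x ^ j * (1 / ((((A j).image (phi p (root p b))).card : ℝ) / p) +
          Z / ((((X j).image (phi p (root p b))).card : ℝ) / p)) := by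
    refine Finset.sum_le_sum fun p hp => Finset.sum_le_sum fun b _ => ?_
    refine mul_le_mul_of_nonneg_left ?_
      (div_nonneg (Real.log_natCast_nonneg p) (hpp p hp).le)
    exact per_prime hx0 hZ hcd hval hMJ
      (fun j => (((A j).image (phi p (root p b))).card : ℝ) / p)
      (fun j => (((X j).image (phi p (root p b))).card : ℝ) / p)
      (fun j hj => div_pos (hu p hp b j hj) (hpp p hp))
      (fun j hj => div_pos (hv p hp b j hj) (hpp p hp))
      (fun i hi => density_bound hP0 hδ hprime A X hXne hAX hp b hi) _ kk_mono p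
  rw [left_eq, right_eq _ J _ x Z hpp
    (fun p b j => (((A j).image (phi p (root p b))).card : ℝ))
    (fun p b j => (((X j).image (phi p (root p b))).card : ℝ)) hu hv] at hsumall
  have hleft : ∑ m ∈ range M, x ^ m * ∑ p ∈ (primesMod P0 (kk K C Q J)).filter
      (fun p => p ≤ kk K C Q m), 2 * (Real.log p / p) =
      ∑ m ∈ range M, x ^ m * ∑ p ∈ primesMod P0 (kk K C Q m), 2 * (Real.log p / p) := by
    refine Finset.sum_congr rfl fun m hm => ?_
    rw [mem_range] at hm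
    rw [filter_primesMod (kk_mono (by omega))]
  rw [hleft] at hsumall
  refine hsumall.trans ?_
  refine (Finset.sum_le_sum (g := fun _ => 2 * β * (1 + Z * (C + 1)) *
    (Real.log Q + Real.log (K + 2)) + (1 + Z) * (2 * Real.log 4 + 2 * Real.log K))
    fun j hj => ?_).trans (le_of_eq ?_)
  · rw [mem_range] at hj
    rw [filter_primesMod (kk_mono hj.le)]
    exact level_bound hC hβ hK hx hZ hQ
      (sieve_level hK hβ (hk1 j) (hk1 j) (A j) (hA j hj.le).1 (hA j hj.le).2)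
      (sieve_level hK hβ (hk1 j) (hk1 (j + 1)) (X j) (hX j hj).1 (hX j hj).2)
  · rw [Finset.sum_const, card_range, nsmul_eq_mul]

end Vale.Agent.P015.H10
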