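import Vale.Agent.P015.H10.Core2

namespace Vale.Agent.P015.H10

open Finset Vale.Agent.P015 Vale.Agent.P015.Cx Filter Topology

theorem val_eq (x Z δ : ℝ) (c d : ℕ → ℝ) (n : ℕ) :
    val x Z δ c d n = val x Z 0 c d n - δ * ∑ s ∈ range (n + 1), x ^ s * c s ^ 2 := by
  unfold val
  rw [Finset.mul_sum, ← Finset.sum_sub_distrib]
  refine Finset.sum_congr rfl fun s _ => ?_
  ring

theorem exists_delta {x Z B : ℝ} {c d : ℕ → ℝ} {n : ℕ} (h : B < (1 - x) * val x Z 0 c d n) :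
    ∃ δ : ℝ, 0 < δ ∧ δ < 1 / 2 ∧ B < (1 - x) * val x Z δ c d n * (1 - δ) ^ 2 := by
  set S := ∑ s ∈ range (n + 1), x ^ s * c s ^ 2 with hS
  have hcont : Continuous fun δ : ℝ => (1 - x) * (val x Z 0 c d n - δ * S) * (1 - δ) ^ 2 := by
    fun_prop
  have h0 : B < (fun δ : ℝ => (1 - x) * (val x Z 0 c d n - δ * S) * (1 - δ) ^ 2) 0 := by
    simpa using h
  have h1 : ∀ᶠ δ in 𝓝 (0 : ℝ), B < (1 - x) * (val x Z 0 c d n - δ * S) * (1 - δ) ^ 2 :=
    hcont.continuousAt.eventually (lt_mem_nhds h0)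
  have h2 : ∀ᶠ δ in 𝓝 (0 : ℝ), δ < 1 / 2 := gt_mem_nhds (by norm_num)
  have h3 := ((h1.and h2).filter_mono (nhdsWithin_le_nhds (s := Set.Ioi 0))).and
    self_mem_nhdsWithin
  obtain ⟨δ, ⟨h4, h5⟩, h6⟩ := h3.exists
  refine ⟨δ, h6, h5, ?_⟩
  rw [val_eq]
  exact h4

/-- weighted Mertens sum over the levels -/
theorem mertens_levels {x C K c1 C1 : ℝ} {P0 Q M : ℕ} (hC : 1 ≤ C) (hK : 1 ≤ K)
    (hx : x = 1 / (C + 1)) (hQ : 1 ≤ Q) (hc1 : 0 ≤ c1)
    (hC1 : ∀ Q : ℕ, 1 ≤ Q →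
      c1 * Real.log Q - C1 ≤ ∑ p ∈ primesMod P0 Q, Real.log p / p) :
    M * (2 * c1 * Real.log Q - 2 * |C1|) ≤ ∑ m ∈ range M, x ^ m *
        ∑ p ∈ primesMod P0 (kk K C Q m), 2 * (Real.log p / p) := by
  have hx0 : 0 < x := by rw [hx]; positivity
  have hxC : x * (C + 1) = 1 := by rw [hx]; field_simp
  have hx1 : x ≤ 1 := by nlinarith
  have h1 : ∀ m ∈ range M, (2 * c1 * Real.log Q - 2 * |C1|) ≤ x ^ m *
        ∑ p ∈ primesMod P0 (kk K C Q m), 2 * (Real.log p / p) := by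
    intro m _
    have e1 := hC1 (kk K C Q m) (one_le_kk hQ m)
    have e2 := log_kk_lower hK hC hQ m
    have hxm : 0 < x ^ m := pow_pos hx0 m
    have hxm1 : x ^ m ≤ 1 := pow_le_one₀ hx0.le hx1
    have hxCm : x ^ m * (C + 1) ^ m = 1 := by rw [← mul_pow, hxC, one_pow]
    have e3 : Real.log Q ≤ x ^ m * Real.log (kk K C Q m) := by
      have := mul_le_mul_of_nonneg_left e2 hxm.le
      rwa [← mul_assoc, hxCm, one_mul] at this
    have e4 : x ^ m * C1 ≤ |C1| :=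
      (mul_le_mul_of_nonneg_left (le_abs_self C1) hxm.le).trans
        (mul_le_of_le_one_left (abs_nonneg _) hxm1)
    rw [← Finset.mul_sum]
    have e5 := mul_le_mul_of_nonneg_left e1 hxm.le
    have e6 := mul_le_mul_of_nonneg_left e3 hc1
    nlinarith
  have h2 := Finset.sum_le_sum h1
  rwa [Finset.sum_const, card_range, nsmul_eq_mul] at h2

/-- **Main finite theorem with a certificate.** -/
theorem core2 {x Z C β K : ℝ} {c d : ℕ → ℝ} {n : ℕ} (hC : 1 ≤ C) (hβ : 0 < β) (hK : 1 ≤ K)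
    (hx : x = 1 / (C + 1)) (hZ : 0 ≤ Z) (hcd : Feasible x Z c d n)
    (hval : 2 * β * (1 + Z * (C + 1)) < (1 - x) * val x Z 0 c d n) :
    ∃ N : ℕ, 1 ≤ N ∧ ∀ γ : ℕ → GaussianInt,
      (∀ a ≤ N, ∀ b ≤ N, γ a = γ b → a = b) →
      Misses γ N →
      (∀ a b, a ≤ b → b ≤ N → ((γ b - γ a).norm : ℝ) ≤ (K * ((b - a : ℕ) : ℝ) ^ β) ^ 2) →
      ¬ (∀ k, 1 ≤ k → k ≤ N →
        (((range (N + 1 - k)).image (word γ k)).card : ℝ) ≤ K * (k : ℝ) ^ C) := by
  have hx0 : 0 < x := by rw [hx]; positivity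
  have hxC : x * (C + 1) = 1 := by rw [hx]; field_simp
  have hx1 : x < 1 := by nlinarith
  obtain ⟨δ, hδ0, hδ1, hδ⟩ := exists_delta hval
  set B := 2 * β * (1 + Z * (C + 1)) with hB
  have hB0 : 0 < B := by positivity
  set v := (1 - x) * val x Z δ c d n with hv
  have hv0 : 0 < v := by
    by_contra hcon
    push Not at hcon
    have := mul_nonpos_of_nonpos_of_nonneg hcon (sq_nonneg (1 - δ))
    linarith
  have hval0 : 0 ≤ val x Z δ c d n := by
    by_contra hcon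
    push Not at hcon
    have := mul_neg_of_pos_of_neg (show 0 < 1 - x by linarith) hcon
    linarith
  set c1 : ℝ := (1 - δ) / 2 with hc1
  have hc10 : 0 < c1 := by rw [hc1]; linarith
  have hc11 : c1 < 1 / 2 := by rw [hc1]; linarith
  set J : ℕ := ⌈(n : ℝ) / δ⌉₊ + 1 with hJ
  have hJn : (n : ℝ) ≤ δ * J := by
    have h1 := Nat.le_ceil ((n : ℝ) / δ)
    rw [div_le_iff₀ hδ0] at h1
    rw [hJ]; push_cast
    nlinarith
  have hJ1 : (1 : ℝ) ≤ J := by rw [hJ]; push_cast; linarith [Nat.cast_nonneg (α := ℝ) ⌈(n : ℝ) / δ⌉₊]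
  have hnJ : n ≤ J := by
    have : (n : ℝ) ≤ J := by nlinarith
    exact_mod_cast this
  set P0 : ℕ := ⌈(J : ℝ) / δ⌉₊ + 1 with hP0
  have hP0' : (J : ℝ) ≤ δ * P0 := by
    have h1 := Nat.le_ceil ((J : ℝ) / δ)
    rw [div_le_iff₀ hδ0] at h1
    rw [hP0]; push_cast
    nlinarith
  obtain ⟨C1, hC1⟩ := mertens_lower hc10.le hc11 P0
  have hM : ((J - n : ℕ) : ℝ) = J - n := by push_cast [hnJ]; ring
  set M := J - n with hMdef
  have hM1 : (1 - δ) * J ≤ (M : ℝ) := by rw [hM]; linarith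
  set U := Real.log (K + 2) with hU
  set V := (1 + Z) * (2 * Real.log 4 + 2 * Real.log K) with hV
  -- slope
  have hslope : 0 < v * (M * (2 * c1)) - J * B := by
    have h1 : v * ((1 - δ) * J * (2 * c1)) ≤ v * (M * (2 * c1)) :=
      mul_le_mul_of_nonneg_left (mul_le_mul_of_nonneg_right hM1 (by linarith)) hv0.le
    have h2 : v * ((1 - δ) * J * (2 * c1)) = J * (v * (1 - δ) ^ 2) := by
      rw [hc1]; ring
    have h3 : (J : ℝ) * B < J * (v * (1 - δ) ^ 2) := mul_lt_mul_of_pos_left hδ (by linarith)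
    linarith
  have hlogQ : Tendsto (fun Q : ℕ => Real.log (Q : ℝ)) atTop atTop :=
    Real.tendsto_log_atTop.comp tendsto_natCast_atTop_atTop
  have hev := hlogQ.eventually (eventually_gt_atTop
    ((v * (M * (2 * |C1|)) + J * (B * U + V)) / (v * (M * (2 * c1)) - J * B)))
  obtain ⟨Q, hQ2, hQ1⟩ := (hev.and (eventually_ge_atTop 1)).exists
  rw [div_lt_iff₀ hslope] at hQ2
  refine ⟨kk K C Q J, one_le_kk hQ1 J, ?_⟩
  intro γ hinj hprime hdisp hcomp
  have hone := one_scale2 hC hβ hK hx hZ hcd hval0 (M := M) (J := J) (by omega) hQ1 hP0' hδ0.le γ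
    hinj hprime hdisp hcomp
  have hlow := mertens_levels (x := x) (M := M) hC hK hx hQ1 hc10.le hC1
  have h1 := mul_le_mul_of_nonneg_left hlow hv0.le
  have h2 : v * (M * (2 * c1 * Real.log Q - 2 * |C1|)) ≤
      J * (B * (Real.log Q + U) + V) := by
    refine h1.trans (le_trans (le_of_eq ?_) hone)
    rw [hv]; ring
  nlinarith

end Vale.Agent.P015.H10
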