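import Vale.Agent.P015.H10.Repeat

/-! Quadratic complexity when the blocks of bounded letters are bounded. -/

namespace Vale.Agent.P015.H10.Morph

variable {A : Type*} {h : A → List A}

/-- factors of length `n` of the iterates -/
def fct (h : A → List A) (a0 : A) (n : ℕ) : Set (List A) :=
  {y | y.length = n ∧ ∃ k, y <:+: it h k a0}

theorem count_factors [Finite A] (hne : ∀ a, h a ≠ []) (a0 : A) {L0 : ℕ}
    (hL0 : ∀ k y, y <:+: it h k a0 → (∀ c ∈ y, Bd h c) → y.length ≤ L0) :
    ∃ C0 : ℕ, ∀ n, (fct h a0 n).Finite ∧ (fct h a0 n).ncard ≤ C0 * (n + 1) ^ 2 := by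
  obtain ⟨M, hM⟩ := Finite.exists_le fun a => (h a).length
  obtain ⟨R, hR1, hR⟩ := exists_growth hne
  set L := L0 + 2 with hL
  set T : Set (A × List A × A) := {q | q.2.1.length ≤ (M + 2) * L} with hT
  have hTfin : T.Finite := by
    have h1 : (Set.univ ×ˢ ({l : List A | l.length ≤ (M + 2) * L} ×ˢ Set.univ) :
        Set (A × List A × A)).Finite :=
      Set.finite_univ.prod ((finite_lists_le _).prod Set.finite_univ)
    refine h1.subset fun q hq => ?_
    exact ⟨Set.mem_univ _, hq, Set.mem_univ _⟩
  set S : Set (List A) := {l : List A | l.length ≤ L} with hS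
  have hSfin : S.Finite := finite_lists_le L
  refine ⟨T.ncard * (R + 1) + S.ncard, fun n => ?_⟩
  by_cases hn : n ≤ L
  · have hsub : fct h a0 n ⊆ S := fun y hy => by
      rw [hS, Set.mem_ofPred_eq, hy.1]
      exact hn
    refine ⟨hSfin.subset hsub, (Set.ncard_le_ncard hsub hSfin).trans ?_⟩
    have h1 : 1 ≤ (n + 1) ^ 2 := Nat.one_le_pow _ _ (by omega)
    nlinarith [Nat.zero_le (T.ncard * (R + 1) * (n + 1) ^ 2)]
  · push Not at hn
    set G : (A × List A × A) × ℕ × ℕ → List A := fun q =>
      (it h q.2.1 q.1.1).drop ((it h q.2.1 q.1.1).length - q.2.2) ++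
        q.1.2.1.flatMap (it h q.2.1) ++
        (it h q.2.1 q.1.2.2).take (n - q.2.2 - (q.1.2.1.flatMap (it h q.2.1)).length) with hG
    set D : Set ((A × List A × A) × ℕ × ℕ) :=
      T ×ˢ (((Finset.range (R * n + 1) : Finset ℕ) : Set ℕ) ×ˢ
        ((Finset.range (n + 1) : Finset ℕ) : Set ℕ)) with hD
    have hDfin : D.Finite := hTfin.prod ((Finset.finite_toSet _).prod (Finset.finite_toSet _))
    have hsub : fct h a0 n ⊆ G '' D := by
      rintro y ⟨hlen, k, hk⟩
      obtain ⟨r, c1, m, c2, s, p, ⟨k', hk'⟩, g1, g2, g3, g4, -, -, g7⟩ :=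
        ancestor hM (show 1 ≤ L by omega) a0 k y hk (by omega)
      have hlen2 : s.length + (m.flatMap (it h r)).length + p.length = n := by
        rw [← hlen, g7, List.length_append, List.length_append]
      have hex : ∃ c ∈ m, ¬ Bd h c := by
        by_contra hcon
        push Not at hcon
        have h1 : m <:+: it h k' a0 :=
          List.IsInfix.trans ⟨[c1], [c2], by simp⟩ hk'
        have := hL0 k' m h1 hcon
        omega
      obtain ⟨c, hc, hcb⟩ := hex
      have h1 := hR c hcb r
      have h2 := length_le_of_mem (f := it h r) hc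
      have h3 : r ≤ R * n := h1.trans (Nat.mul_le_mul_left R (by omega))
      refine ⟨((c1, m, c2), r, s.length), ⟨?_, ?_, ?_⟩, ?_⟩
      · rw [hT, Set.mem_ofPred_eq]
        simp only
        omega
      · simp only [Finset.coe_range, Set.mem_Iio]
        omega
      · simp only [Finset.coe_range, Set.mem_Iio]
        omega
      · simp only [hG]
        have e1 := List.suffix_iff_eq_drop.1 g3
        have e2 := List.prefix_iff_eq_take.1 g4
        have e3 : n - s.length - (m.flatMap (it h r)).length = p.length := by omega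
        rw [e3, ← e1, ← e2, g7]
    refine ⟨(hDfin.image G).subset hsub, ?_⟩
    refine (Set.ncard_le_ncard hsub (hDfin.image G)).trans ((Set.ncard_image_le hDfin).trans ?_)
    rw [hD, Set.ncard_prod, Set.ncard_prod, Set.ncard_coe_finset, Set.ncard_coe_finset,
      Finset.card_range, Finset.card_range]
    have h1 : R * n + 1 ≤ (R + 1) * (n + 1) := by nlinarith
    calc T.ncard * ((R * n + 1) * (n + 1)) ≤ T.ncard * ((R + 1) * (n + 1) * (n + 1)) :=
          Nat.mul_le_mul_left _ (Nat.mul_le_mul_right _ h1)
      _ = T.ncard * (R + 1) * (n + 1) ^ 2 := by ring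
      _ ≤ _ := Nat.mul_le_mul_right _ (Nat.le_add_right _ _)

/-- the fixed point and the iterates of its first letter -/
theorem it_eq_range (hne : ∀ a, h a ≠ []) {x : ℕ → A} (h2 : 2 ≤ (h (x 0)).length)
    (hx : ∀ n, ∃ m, ((List.range n).map x).flatMap h = (List.range m).map x) (k : ℕ) :
    ∃ m, k + 1 ≤ m ∧ it h k (x 0) = (List.range m).map x := by
  induction k with
  | zero => exact ⟨1, le_refl _, by simp [it]⟩
  | succ k ih =>
    obtain ⟨m, hm, h3⟩ := ih
    obtain ⟨m', hm'⟩ := hx m
    refine ⟨m', ?_, by rw [it_succ, h3, hm']⟩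
    obtain ⟨t, rfl⟩ : ∃ t, m = t + 1 := ⟨m - 1, by omega⟩
    have h4 := congrArg List.length hm'
    rw [List.range_succ_eq_map, List.map_cons, List.flatMap_cons, List.length_append,
      List.length_map, List.length_range] at h4
    have h5 := length_le_flatMap hne (List.map x (List.map Nat.succ (List.range t)))
    rw [List.length_map, List.length_map, List.length_range] at h5
    omega

theorem factor_mem (hne : ∀ a, h a ≠ []) {x : ℕ → A} (h2 : 2 ≤ (h (x 0)).length)
    (hx : ∀ n, ∃ m, ((List.range n).map x).flatMap h = (List.range m).map x) (n k : ℕ) :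
    (List.range k).map (fun i => x (n + i)) ∈ fct h (x 0) k := by
  refine ⟨by simp, n + k, ?_⟩
  obtain ⟨m, hm, h3⟩ := it_eq_range hne h2 hx (n + k)
  obtain ⟨t, rfl⟩ : ∃ t, m = (n + k) + t := ⟨m - (n + k), by omega⟩
  rw [h3, List.range_add, List.range_add, List.map_append, List.map_append, List.map_map]
  exact ⟨_, _, rfl⟩

theorem exists_position {x : ℕ → A} {z : List A} {m : ℕ} (hz : z <:+: (List.range m).map x) :
    ∃ n, ∀ i (hi : i < z.length), z[i] = x (n + i) := by
  obtain ⟨s, t, hst⟩ := hz
  refine ⟨s.length, fun i hi => ?_⟩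
  have hlen := congrArg List.length hst
  rw [List.length_append, List.length_append, List.length_map, List.length_range] at hlen
  have h1 : s.length + i < (s ++ z ++ t).length := by
    rw [List.length_append, List.length_append]
    omega
  have h2 : (s ++ z ++ t)[s.length + i] = z[i] := by
    rw [List.getElem_append_left (by rw [List.length_append]; omega),
      List.getElem_append_right (by omega)]
    simp
  have h3 : (s ++ z ++ t)[s.length + i] = x (s.length + i) := by
    simp only [hst, List.getElem_map, List.getElem_range]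
  rw [← h2, h3]

theorem pw_shift {U : List A} {m i : ℕ} (hi : i + U.length < (pw U m).length) :
    (pw U m)[i + U.length] = (pw U m)[i]'(by omega) := by
  have h1 : pw U m ++ U = U ++ pw U m := by rw [← pw_succ, pw_succ']
  have h2 : i + U.length < (pw U m ++ U).length := by rw [List.length_append]; omega
  have h3 : (pw U m ++ U)[i + U.length] = (pw U m)[i + U.length] :=
    List.getElem_append_left hi
  have h4 : (pw U m ++ U)[i + U.length] = (pw U m)[i]'(by omega) := by
    simp only [h1]
    rw [List.getElem_append_right (by omega)]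
    simp
  rw [← h3, h4]

end Vale.Agent.P015.H10.Morph
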