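import Vale.Agent.P015.H10.Ancestor

/-! Long blocks of bounded letters come from loops. -/

namespace Vale.Agent.P015.H10.Morph

variable {A : Type*} {h : A → List A}

theorem last_split (P : A → Prop) (l : List A) (hl : ∃ c ∈ l, P c) :
    ∃ v g w, l = v ++ g :: w ∧ P g ∧ ∀ c ∈ w, ¬ P c := by
  induction l with
  | nil => simp at hl
  | cons a l ih =>
    by_cases h1 : ∃ c ∈ l, P c
    · obtain ⟨v, g, w, rfl, h2, h3⟩ := ih h1
      exact ⟨a :: v, g, w, by simp, h2, h3⟩
    · refine ⟨[], a, l, rfl, ?_, fun c hc hP => h1 ⟨c, hc, hP⟩⟩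
      obtain ⟨c, hc, hP⟩ := hl
      rcases List.mem_cons.1 hc with rfl | h2
      · exact hP
      · exact absurd ⟨c, h2, hP⟩ h1

/-- the data `h a = V ++ nxt a :: W` with `nxt a` the last unbounded letter of `h a` -/
theorem exists_nxt (hne : ∀ a, h a ≠ []) : ∃ (V : A → List A) (nxt : A → A) (W : A → List A),
    ∀ a, ¬ Bd h a → h a = V a ++ nxt a :: W a ∧ ¬ Bd h (nxt a) ∧ ∀ c ∈ W a, Bd h c := by
  have h1 : ∀ a : A, ∃ (v : List A) (g : A) (w : List A),
      ¬ Bd h a → h a = v ++ g :: w ∧ ¬ Bd h g ∧ ∀ c ∈ w, Bd h c := by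
    intro a
    by_cases ha : Bd h a
    · exact ⟨[], a, [], fun h => absurd ha h⟩
    · obtain ⟨c, hc, hcb⟩ := exists_unbounded hne ha 1
      have hc' : c ∈ h a := by simpa [it] using hc
      obtain ⟨v, g, w, h2, h3, h4⟩ := last_split (fun c => ¬ Bd h c) (h a) ⟨c, hc', hcb⟩
      exact ⟨v, g, w, fun _ => ⟨h2, h3, fun c hc => not_not.1 (h4 c hc)⟩⟩
  choose V nxt W hVW using h1
  exact ⟨V, nxt, W, hVW⟩

/-- the bounded letters behind the last unbounded letter of `it h r a` -/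
def tl (h : A → List A) (nxt : A → A) (W : A → List A) : ℕ → A → List A
  | 0, _ => []
  | r + 1, a => W (nxt^[r] a) ++ (tl h nxt W r a).flatMap h

theorem tl_add (nxt : A → A) (W : A → List A) (r t : ℕ) (a : A) :
    tl h nxt W (r + t) a = tl h nxt W r (nxt^[t] a) ++ (tl h nxt W t a).flatMap (it h r) := by
  induction r with
  | zero =>
    rw [zero_add, it_zero, List.flatMap_singleton']
    simp [tl]
  | succ r ih =>
    have e : r + 1 + t = (r + t) + 1 := by omega
    rw [e]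
    simp only [tl]
    rw [ih, flatMap_it_succ, List.flatMap_append, Function.iterate_add_apply]
    simp

theorem bd_flatMap {l : List A} (hl : ∀ c ∈ l, Bd h c) (r : ℕ) :
    ∀ c ∈ l.flatMap (it h r), Bd h c := by
  intro c hc
  rw [List.mem_flatMap] at hc
  obtain ⟨b, hb, hc⟩ := hc
  exact bd_of_mem (hl b hb) hc

theorem bd_flatMap_one {l : List A} (hl : ∀ c ∈ l, Bd h c) : ∀ c ∈ l.flatMap h, Bd h c := by
  have e : it h 1 = h := by
    funext a
    simp [it]
  have := bd_flatMap hl 1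
  rwa [e] at this

theorem it_split {V : A → List A} {nxt : A → A} {W : A → List A}
    (hVW : ∀ a, ¬ Bd h a → h a = V a ++ nxt a :: W a ∧ ¬ Bd h (nxt a) ∧ ∀ c ∈ W a, Bd h c)
    {a : A} (ha : ¬ Bd h a) (r : ℕ) :
    (∃ v, it h r a = v ++ nxt^[r] a :: tl h nxt W r a) ∧ ¬ Bd h (nxt^[r] a) ∧
      ∀ c ∈ tl h nxt W r a, Bd h c := by
  induction r with
  | zero => exact ⟨⟨[], by simp [it, tl]⟩, ha, by simp [tl]⟩
  | succ r ih =>
    obtain ⟨⟨v, h1⟩, h2, h3⟩ := ih
    obtain ⟨h4, h5, h6⟩ := hVW _ h2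
    refine ⟨⟨v.flatMap h ++ V (nxt^[r] a), ?_⟩, ?_, ?_⟩
    · rw [it_succ, h1, List.flatMap_append, List.flatMap_cons, h4, Function.iterate_succ_apply']
      simp [tl]
    · rwa [Function.iterate_succ_apply']
    · intro c hc
      rw [tl, List.mem_append] at hc
      rcases hc with hc | hc
      · exact h6 c hc
      · exact bd_flatMap_one h3 c hc

/-- no accessible loop with bounded letters on the right -/
def NoLoop (h : A → List A) (Acc : A → Prop) : Prop :=
  ∀ g, Acc g → ¬ Bd h g → ∀ e, 1 ≤ e → ∀ V W, it h e g = V ++ g :: W →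
    (∀ c ∈ W, Bd h c) → W = []

theorem acc_it {Acc : A → Prop} (hAcc : ∀ a, Acc a → ∀ c ∈ h a, Acc c) {a : A} (ha : Acc a)
    (r : ℕ) : ∀ c ∈ it h r a, Acc c := by
  induction r with
  | zero =>
    intro c hc
    simp only [it, List.mem_singleton] at hc
    rwa [hc]
  | succ r ih =>
    intro c hc
    rw [it_succ, List.mem_flatMap] at hc
    obtain ⟨b, hb, hc⟩ := hc
    exact hAcc b (ih b hb) c hc

theorem tl_bounded [Finite A] (hne : ∀ a, h a ≠ []) {Acc : A → Prop}
    (hAcc : ∀ a, Acc a → ∀ c ∈ h a, Acc c) (hNL : NoLoop h Acc)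
    {V : A → List A} {nxt : A → A} {W : A → List A}
    (hVW : ∀ a, ¬ Bd h a → h a = V a ++ nxt a :: W a ∧ ¬ Bd h (nxt a) ∧ ∀ c ∈ W a, Bd h c) :
    ∃ L1 : ℕ, ∀ a, Acc a → ¬ Bd h a → ∀ r, (tl h nxt W r a).length ≤ L1 := by
  obtain ⟨N, hN1, hN⟩ := exists_uniform (h := h)
  have hmono : ∀ a r t, (tl h nxt W t a).length ≤ (tl h nxt W (r + t) a).length := by
    intro a r t
    rw [tl_add, List.length_append]
    have := length_le_flatMap (it_ne_nil hne r) (tl h nxt W t a)
    omega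
  -- letters on a cycle
  have hcyc : ∀ g, Acc g → ¬ Bd h g → ∀ e, 1 ≤ e → nxt^[e] g = g → ∀ m, tl h nxt W m g = [] := by
    intro g hg hgb e he hge m
    have h1 : nxt^[m * e] g = g := by
      rw [mul_comm, Function.iterate_mul]
      exact Function.iterate_fixed hge m
    by_cases hm : m = 0
    · subst hm; rfl
    obtain ⟨⟨v, h2⟩, -, h4⟩ := it_split hVW hgb (m * e)
    rw [h1] at h2
    have h5 := hNL g hg hgb (m * e) (Nat.mul_pos (Nat.pos_of_ne_zero hm) he) v _ h2 h4
    obtain ⟨t, ht⟩ := Nat.exists_eq_add_of_le (Nat.le_mul_of_pos_right m he)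
    have h6 := hmono g t m
    rw [add_comm t m, ← ht, h5] at h6
    simpa using h6
  have hone : ∀ a : A, ∃ L : ℕ, Acc a → ¬ Bd h a → ∀ r, (tl h nxt W r a).length ≤ L := by
    intro a
    by_cases ha : Acc a ∧ ¬ Bd h a
    · obtain ⟨ha1, ha2⟩ := ha
      obtain ⟨i, j, hij, hfij⟩ := Finite.exists_ne_map_eq_of_infinite (fun n : ℕ => nxt^[n] a)
      have key : ∀ i j : ℕ, i < j → nxt^[i] a = nxt^[j] a →
          ∀ r, (tl h nxt W r a).length ≤ N * (tl h nxt W i a).length := by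
        intro i j hij hfij r
        have h1 : nxt^[j - i] (nxt^[i] a) = nxt^[i] a := by
          rw [← Function.iterate_add_apply, Nat.sub_add_cancel hij.le]
          exact hfij.symm
        obtain ⟨⟨v, h2⟩, h3, h4⟩ := it_split hVW ha2 i
        have h5 : Acc (nxt^[i] a) := by
          refine acc_it hAcc ha1 i _ ?_
          rw [h2]; simp
        have h6 := hcyc _ h5 h3 (j - i) (by omega) h1 r
        refine (hmono a i r).trans ?_
        rw [add_comm i r, tl_add, h6, List.nil_append]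
        exact length_flatMap_le _ fun c hc => hN c (h4 c hc) r
      rcases lt_or_gt_of_ne hij with h1 | h1
      · exact ⟨_, fun _ _ => key i j h1 hfij⟩
      · exact ⟨_, fun _ _ => key j i h1 hfij.symm⟩
    · exact ⟨0, fun h1 h2 => absurd ⟨h1, h2⟩ ha⟩
  choose f hf using hone
  obtain ⟨M, hM⟩ := Finite.exists_le f
  exact ⟨M, fun a ha1 ha2 r => (hf a ha1 ha2 r).trans (hM a)⟩

/-- suffixes of bounded letters are short when there is no loop -/
theorem suffix_bounded [Finite A] (hne : ∀ a, h a ≠ []) {Acc : A → Prop}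
    (hAcc : ∀ a, Acc a → ∀ c ∈ h a, Acc c) (hNL : NoLoop h Acc) :
    ∃ L1 : ℕ, ∀ a, Acc a → ∀ r s, s <:+ it h r a → (∀ c ∈ s, Bd h c) → s.length ≤ L1 := by
  obtain ⟨V, nxt, W, hVW⟩ := exists_nxt hne
  obtain ⟨N, hN1, hN⟩ := exists_uniform (h := h)
  obtain ⟨L, hL⟩ := tl_bounded hne hAcc hNL hVW
  refine ⟨max N L, fun a ha r s hs hsb => ?_⟩
  by_cases hab : Bd h a
  · exact (hs.length_le.trans (hN a hab r)).trans (le_max_left _ _)
  · obtain ⟨⟨v, h1⟩, h2, -⟩ := it_split hVW hab r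
    refine le_trans ?_ ((hL a ha hab r).trans (le_max_right _ _))
    by_contra hcon
    push Not at hcon
    have h3 : nxt^[r] a :: tl h nxt W r a <:+ it h r a := by
      rw [h1]
      exact List.suffix_append _ _
    have h4 := List.suffix_of_suffix_length_le h3 hs (by
      rw [List.length_cons]
      omega)
    exact h2 (hsb _ (h4.subset (by simp)))

/-- the reversed morphism -/
def rv (h : A → List A) (a : A) : List A := (h a).reverse

theorem it_rv (r : ℕ) (a : A) : it (rv h) r a = (it h r a).reverse := by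
  induction r with
  | zero => simp [it]
  | succ r ih =>
    rw [it_succ, it_succ, ih, List.reverse_flatMap]
    rfl

theorem bd_rv (a : A) : Bd (rv h) a ↔ Bd h a := by
  unfold Bd
  simp only [it_rv, List.length_reverse]

theorem prefix_bounded [Finite A] (hne : ∀ a, h a ≠ []) {Acc : A → Prop}
    (hAcc : ∀ a, Acc a → ∀ c ∈ h a, Acc c) (hNL : NoLoop (rv h) Acc) :
    ∃ L1 : ℕ, ∀ a, Acc a → ∀ r s, s <+: it h r a → (∀ c ∈ s, Bd h c) → s.length ≤ L1 := by
  obtain ⟨L, hL⟩ := suffix_bounded (h := rv h) (fun a => by simpa [rv] using hne a)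
    (fun a ha c hc => hAcc a ha c (by simpa [rv] using hc)) hNL
  refine ⟨L, fun a ha r s hs hsb => ?_⟩
  have h1 := hL a ha r s.reverse (by
    rw [it_rv]
    exact List.reverse_suffix.2 hs) (fun c hc => (bd_rv c).2 (hsb c (by simpa using hc)))
  simpa using h1

/-- without loops the blocks of bounded letters have bounded length -/
theorem blocks_bounded [Finite A] (hne : ∀ a, h a ≠ []) (a0 : A)
    (hNL : NoLoop h fun c => ∃ k, c ∈ it h k a0)
    (hNL' : NoLoop (rv h) fun c => ∃ k, c ∈ it h k a0) :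
    ∃ L0 : ℕ, ∀ k y, y <:+: it h k a0 → (∀ c ∈ y, Bd h c) → y.length ≤ L0 := by
  have hAcc : ∀ a, (∃ k, a ∈ it h k a0) → ∀ c ∈ h a, ∃ k, c ∈ it h k a0 := by
    rintro a ⟨k, hk⟩ c hc
    exact ⟨k + 1, by rw [it_succ, List.mem_flatMap]; exact ⟨a, hk, hc⟩⟩
  obtain ⟨N, hN1, hN⟩ := exists_uniform (h := h)
  obtain ⟨M, hM⟩ := Finite.exists_le fun a => (h a).length
  obtain ⟨L1, hL1⟩ := suffix_bounded hne hAcc hNL
  obtain ⟨L2, hL2⟩ := prefix_bounded hne hAcc hNL'
  refine ⟨L1 + N * ((M + 2) * 1) + L2 + 2, fun k y hy hyb => ?_⟩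
  by_contra hcon
  push Not at hcon
  obtain ⟨r, c1, m, c2, s, p, ⟨k', hk'⟩, -, g2, g3, g4, -, -, rfl⟩ :=
    ancestor hM (le_refl 1) a0 k y hy (by omega)
  have hb1 : ∀ c ∈ s, Bd h c := fun c hc => hyb c (by simp [hc])
  have hb2 : ∀ c ∈ p, Bd h c := fun c hc => hyb c (by simp [hc])
  have hb3 : ∀ c ∈ m.flatMap (it h r), Bd h c := fun c hc =>
    hyb c (List.mem_append_left _ (List.mem_append_right _ hc))
  have hm : ∀ c ∈ m, Bd h c := by
    intro c hc
    by_contra hcb
    obtain ⟨d, hd, hdb⟩ := exists_unbounded hne hcb r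
    exact hdb (hb3 d (List.mem_flatMap.2 ⟨c, hc, hd⟩))
  have h1 := hL1 c1 ⟨k', hk'.subset (by simp)⟩ r s g3 hb1
  have h2 := hL2 c2 ⟨k', hk'.subset (by simp)⟩ r p g4 hb2
  have h3 := length_flatMap_le (f := it h r) (N := N) m fun c hc => hN c (hm c hc) r
  have h4 : N * m.length ≤ N * ((M + 2) * 1) := Nat.mul_le_mul_left N (by omega)
  rw [List.length_append, List.length_append] at hcon
  omega

end Vale.Agent.P015.H10.Morph
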