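import Mathlib

/-! Iterates of a non-erasing morphism. -/

namespace Vale.Agent.P015.H10.Morph

variable {A : Type*}

/-- iterates of the morphism `h` -/
def it (h : A → List A) : ℕ → A → List A
  | 0, a => [a]
  | r + 1, a => (it h r a).flatMap h

theorem it_zero (h : A → List A) : it h 0 = fun a => [a] := rfl

theorem it_succ (h : A → List A) (r : ℕ) (a : A) : it h (r + 1) a = (it h r a).flatMap h := rfl

theorem it_add (h : A → List A) (r t : ℕ) (a : A) :
    it h (r + t) a = (it h t a).flatMap (it h r) := by
  induction r with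
  | zero => rw [zero_add, it_zero, List.flatMap_singleton']
  | succ r ih =>
    have e : r + 1 + t = (r + t) + 1 := by omega
    rw [e, it_succ, ih, List.flatMap_assoc]
    rfl

theorem flatMap_it_add (h : A → List A) (r t : ℕ) (l : List A) :
    l.flatMap (it h (r + t)) = (l.flatMap (it h t)).flatMap (it h r) := by
  rw [List.flatMap_assoc]
  refine congrArg (fun f => l.flatMap f) ?_
  funext a
  exact it_add h r t a

theorem flatMap_it_succ (h : A → List A) (r : ℕ) (l : List A) :
    l.flatMap (it h (r + 1)) = (l.flatMap (it h r)).flatMap h := by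
  rw [List.flatMap_assoc]
  rfl

theorem length_le_flatMap {f : A → List A} (hf : ∀ a, f a ≠ []) (l : List A) :
    l.length ≤ (l.flatMap f).length := by
  induction l with
  | nil => simp
  | cons a l ih =>
    rw [List.flatMap_cons, List.length_append, List.length_cons]
    have := List.length_pos_of_ne_nil (hf a)
    omega

theorem length_flatMap_le {f : A → List A} {N : ℕ} (l : List A)
    (hf : ∀ a ∈ l, (f a).length ≤ N) : (l.flatMap f).length ≤ N * l.length := by
  induction l with
  | nil => simp
  | cons a l ih =>
    rw [List.flatMap_cons, List.length_append, List.length_cons]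
    have h1 := hf a (by simp)
    have h2 := ih fun b hb => hf b (by simp [hb])
    rw [mul_add, mul_one]
    omega

theorem length_le_of_mem {f : A → List A} {l : List A} {c : A} (hc : c ∈ l) :
    (f c).length ≤ (l.flatMap f).length := by
  induction l with
  | nil => simp at hc
  | cons a l ih =>
    rw [List.flatMap_cons, List.length_append]
    rcases List.mem_cons.1 hc with rfl | h
    · omega
    · have := ih h
      omega

variable {h : A → List A}

theorem it_ne_nil (hne : ∀ a, h a ≠ []) (r : ℕ) (a : A) : it h r a ≠ [] := by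
  induction r with
  | zero => simp [it]
  | succ r ih =>
    have h1 := length_le_flatMap hne (it h r a)
    have h2 := List.length_pos_of_ne_nil ih
    rw [it_succ]
    intro h3
    rw [h3] at h1
    simp at h1
    exact ih h1

theorem it_length_mono (hne : ∀ a, h a ≠ []) (a : A) : Monotone fun r => (it h r a).length :=
  monotone_nat_of_le_succ fun r => by
    simp only [it_succ]
    exact length_le_flatMap hne _

/-- bounded letters -/
def Bd (h : A → List A) (a : A) : Prop := ∃ N : ℕ, ∀ r, (it h r a).length ≤ N

theorem bd_of_mem {a c : A} {t : ℕ} (ha : Bd h a) (hc : c ∈ it h t a) : Bd h c := by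
  obtain ⟨N, hN⟩ := ha
  refine ⟨N, fun r => le_trans ?_ (hN (r + t))⟩
  rw [it_add]
  exact length_le_of_mem hc

theorem exists_bound_list (l : List A) (hl : ∀ c ∈ l, Bd h c) :
    ∃ N : ℕ, ∀ r, (l.flatMap (it h r)).length ≤ N := by
  induction l with
  | nil => exact ⟨0, fun r => by simp⟩
  | cons a l ih =>
    obtain ⟨N1, h1⟩ := hl a (by simp)
    obtain ⟨N2, h2⟩ := ih fun c hc => hl c (by simp [hc])
    refine ⟨N1 + N2, fun r => ?_⟩
    rw [List.flatMap_cons, List.length_append]
    exact add_le_add (h1 r) (h2 r)

theorem exists_unbounded (hne : ∀ a, h a ≠ []) {a : A} (ha : ¬ Bd h a) (t : ℕ) :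
    ∃ c ∈ it h t a, ¬ Bd h c := by
  by_contra hcon
  push Not at hcon
  obtain ⟨N, hN⟩ := exists_bound_list _ hcon
  refine ha ⟨N, fun r => ?_⟩
  refine (it_length_mono hne a (Nat.le_add_right r t)).trans ?_
  simp only [it_add]
  exact hN r

theorem exists_uniform [Finite A] :
    ∃ N : ℕ, 1 ≤ N ∧ ∀ b, Bd h b → ∀ r, (it h r b).length ≤ N := by
  have h1 : ∀ b : A, ∃ N : ℕ, Bd h b → ∀ r, (it h r b).length ≤ N := by
    intro b
    by_cases hb : Bd h b
    · obtain ⟨N, hN⟩ := hb
      exact ⟨N, fun _ => hN⟩
    · exact ⟨0, fun h => absurd h hb⟩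
  choose f hf using h1
  obtain ⟨M, hM⟩ := Finite.exists_le f
  exact ⟨M + 1, by omega, fun b hb r => (hf b hb r).trans ((hM b).trans (Nat.le_succ M))⟩

/-- unbounded letters grow at least linearly -/
theorem exists_growth [Finite A] (hne : ∀ a, h a ≠ []) :
    ∃ R : ℕ, 1 ≤ R ∧ ∀ a, ¬ Bd h a → ∀ r, r ≤ R * (it h r a).length := by
  have h1 : ∀ a : A, ∃ R : ℕ, ¬ Bd h a → 2 ≤ (it h R a).length := by
    intro a
    by_cases ha : Bd h a
    · exact ⟨0, fun h => absurd ha h⟩
    · have h2 : ¬ ∀ r, (it h r a).length ≤ 1 := fun h3 => ha ⟨1, h3⟩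
      push Not at h2
      obtain ⟨r, hr⟩ := h2
      exact ⟨r, fun _ => hr⟩
  choose f hf using h1
  obtain ⟨M, hM⟩ := Finite.exists_le f
  set R := M + 1 with hR
  have h2 : ∀ a, ¬ Bd h a → 2 ≤ (it h R a).length := fun a ha =>
    (hf a ha).trans (it_length_mono hne a ((hM a).trans (Nat.le_succ M)))
  have h3 : ∀ m a, ¬ Bd h a → m + 1 ≤ (it h (m * R) a).length := by
    intro m
    induction m with
    | zero =>
      intro a _
      rw [zero_mul]
      exact List.length_pos_of_ne_nil (it_ne_nil hne 0 a)
    | succ m ih =>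
      intro a ha
      have e : (m + 1) * R = m * R + R := by ring
      rw [e, it_add]
      obtain ⟨c, hc, hcb⟩ := exists_unbounded hne ha R
      have h4 := h2 a ha
      obtain ⟨l1, l2, hl⟩ := List.append_of_mem hc
      rw [hl] at h4 ⊢
      rw [List.flatMap_append, List.flatMap_cons, List.length_append, List.length_append]
      rw [List.length_append, List.length_cons] at h4
      have h5 := length_le_flatMap (it_ne_nil hne (m * R)) l1
      have h6 := length_le_flatMap (it_ne_nil hne (m * R)) l2
      have h7 := ih c hcb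
      omega
  refine ⟨R, by omega, fun a ha r => ?_⟩
  have h4 := h3 (r / R) a ha
  have h5 := it_length_mono hne a (Nat.div_mul_le_self r R)
  simp only at h5
  have h6 := Nat.lt_div_mul_add (a := r) (b := R) (by omega)
  have h7 : r / R + 1 ≤ (it h r a).length := h4.trans h5
  have h8 := Nat.mul_le_mul_left R h7
  have h9 : R * (r / R + 1) = r / R * R + R := by ring
  omega

end Vale.Agent.P015.H10.Morph
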