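import Vale.Agent.P015.H10.Tab
import Vale.Agent.P015.Cx.Path

namespace Vale.Agent.P015.H10

open Finset Vale.Agent.P015 Vale.Agent.P015.Cx Filter Topology

/-- there is a dual certificate for the pair `(C, β)` -/
def Certified (C β : ℝ) : Prop :=
  1 ≤ C ∧ 0 < β ∧ ∃ (Z : ℝ) (c d : ℕ → ℝ) (n : ℕ), 0 ≤ Z ∧ Feasible (1 / (C + 1)) Z c d n ∧
    2 * β * (1 + Z * (C + 1)) < (1 - 1 / (C + 1)) * val (1 / (C + 1)) Z 0 c d n

theorem core_certified {C β K : ℝ} (h : Certified C β) (hK : 1 ≤ K) :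
    ∃ N : ℕ, 1 ≤ N ∧ ∀ γ : ℕ → GaussianInt,
      (∀ a ≤ N, ∀ b ≤ N, γ a = γ b → a = b) →
      Misses γ N →
      (∀ a b, a ≤ b → b ≤ N → ((γ b - γ a).norm : ℝ) ≤ (K * ((b - a : ℕ) : ℝ) ^ β) ^ 2) →
      ¬ (∀ k, 1 ≤ k → k ≤ N →
        (((range (N + 1 - k)).image (word γ k)).card : ℝ) ≤ K * (k : ℝ) ^ C) := by
  obtain ⟨hC, hβ, Z, c, d, n, hZ, hcd, hval⟩ := h
  exact core2 hC hβ hK rfl hZ hcd hval

/-- finite theorem, cleaned up -/
theorem finite_version2 {C β : ℝ} (h : Certified C β) (K : ℝ) :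
    ∃ N : ℕ, 1 ≤ N ∧ ∀ g : ℕ → GaussianInt,
      (∀ m ≤ N, ∀ n ≤ N, g m = g n → m = n) →
      (∀ π : GaussianInt, Prime π → π.norm ≤ N →
        ∃ c : GaussianInt, ∀ n ≤ N, ¬ π ∣ g n - c) →
      (∀ m n, m ≤ n → n ≤ N → dist (GaussianInt.toComplex (g m)) (GaussianInt.toComplex (g n)) ≤
        K * ((n - m : ℕ) : ℝ) ^ β) →
      ∃ k : ℕ, 1 ≤ k ∧ k ≤ N ∧
        K * (k : ℝ) ^ C < ((stepWord g k '' {n | n + k ≤ N}).ncard : ℝ) := by
  obtain ⟨N, hN1, hN⟩ := core_certified (K := max K 1) h (le_max_right _ _)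
  refine ⟨N, hN1, fun g hinj hmiss hdisp => ?_⟩
  by_contra hcon
  push Not at hcon
  refine hN g hinj (misses_of_gprime hmiss) ?_ ?_
  · intro a b hab hb
    have h1 := hdisp a b hab hb
    have h2 : (0 : ℝ) ≤ ((b - a : ℕ) : ℝ) ^ β := by positivity
    have h3 := h1.trans (mul_le_mul_of_nonneg_right (le_max_left K 1) h2)
    rw [← dist_sq, dist_comm]
    exact pow_le_pow_left₀ dist_nonneg h3 2
  · intro k hk hkN
    have h1 := hcon k hk hkN
    have h2 : (0 : ℝ) ≤ (k : ℝ) ^ C := by positivity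
    have h3 := h1.trans (mul_le_mul_of_nonneg_right (le_max_left K 1) h2)
    refine le_trans (le_of_eq ?_) h3
    congr 1
    have : (((range (N + 1 - k)).image (word g k) : Finset (Fin k → GaussianInt)) :
        Set (Fin k → GaussianInt)) = stepWord g k '' {n | n + k ≤ N} := by
      ext w
      simp only [coe_image, Set.mem_image, mem_coe, mem_range, Set.mem_ofPred_eq]
      constructor
      · rintro ⟨n, hn, rfl⟩; exact ⟨n, by omega, rfl⟩
      · rintro ⟨n, hn, rfl⟩; exact ⟨n, by omega, rfl⟩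
    rw [← this, Set.ncard_coe_finset]

/-- infinite paths: complexity against displacement -/
theorem path_version2 {D : ℝ} {γ : ℕ → {z : GaussianInt // Prime z}} (hγ : IsInfinitePath D γ)
    (n₀ : ℕ) {C β : ℝ} (h : Certified C β) (K : ℝ)
    (hdisp : ∀ m n, n₀ ≤ m → m ≤ n →
      dist (GaussianInt.toComplex (γ m).1) (GaussianInt.toComplex (γ n).1) ≤
        K * ((n - m : ℕ) : ℝ) ^ β) :
    ∃ k : ℕ, 1 ≤ k ∧ K * (k : ℝ) ^ C < (complexity (fun n => (γ n).1) n₀ k : ℝ) := by
  obtain ⟨N, hN1, hN⟩ := core_certified (K := max K 1) h (le_max_right _ _)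
  obtain ⟨n₁, hn₁, hbig⟩ := finite_small D hγ N n₀
  by_contra hcon
  push Not at hcon
  refine hN (fun n => (γ (n₁ + n)).1) ?_ ?_ ?_ ?_
  · intro a _ b _ hab
    have h1 := hγ.1 (Subtype.ext hab)
    omega
  · refine misses_of_prime fun n _ => ⟨(γ (n₁ + n)).2, hbig _ (by omega)⟩
  · intro a b hab _
    have h1 := hdisp (n₁ + a) (n₁ + b) (by omega) (by omega)
    have e : n₁ + b - (n₁ + a) = b - a := by omega
    rw [e] at h1
    have h2 : (0 : ℝ) ≤ ((b - a : ℕ) : ℝ) ^ β := by positivity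
    have h3 := h1.trans (mul_le_mul_of_nonneg_right (le_max_left K 1) h2)
    rw [← dist_sq, dist_comm]
    exact pow_le_pow_left₀ dist_nonneg h3 2
  · intro k hk _
    have h1 := hcon k hk
    have h2 : (0 : ℝ) ≤ (k : ℝ) ^ C := by positivity
    have h3 := h1.trans (mul_le_mul_of_nonneg_right (le_max_left K 1) h2)
    refine le_trans ?_ h3
    have h4 : (((range (N + 1 - k)).image (word (fun n => (γ (n₁ + n)).1) k) :
        Finset (Fin k → GaussianInt)) : Set (Fin k → GaussianInt)) ⊆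
        stepWord (fun n => (γ n).1) k '' Set.Ici n₀ := by
      intro w hw
      rw [coe_image] at hw
      obtain ⟨n, -, rfl⟩ := hw
      refine ⟨n₁ + n, Set.mem_Ici.2 (by omega), ?_⟩
      funext i
      simp only [stepWord, word, ← add_assoc]
    have h5 := Set.ncard_le_ncard h4 (finite_words hγ k n₀)
    rw [Set.ncard_coe_finset] at h5
    unfold complexity
    exact_mod_cast h5

theorem certified0 : Certified (43 / 20) 1 := by
  refine ⟨by norm_num, one_pos, 7 / 20, cc0, dd0, 10, by norm_num, ?_, ?_⟩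
  · have h : (1 : ℝ) / (43 / 20 + 1) = 20 / 63 := by norm_num
    rw [h]
    exact feas0
  · have h : (1 : ℝ) / (43 / 20 + 1) = 20 / 63 := by norm_num
    rw [h]
    exact value0

theorem certified_table : ∀ q ∈ ({(43 / 20, 1), (5 / 2, 9 / 10), (3, 41 / 50), (4, 73 / 100),
    (5, 27 / 40), (7, 31 / 50), (10, 23 / 40)} : Set (ℝ × ℝ)), Certified q.1 q.2 := by
  intro q hq
  simp only [Set.mem_insert_iff, Set.mem_singleton_iff] at hq
  rcases hq with rfl | rfl | rfl | rfl | rfl | rfl | rfl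
  · exact certified0
  · refine ⟨by norm_num, by norm_num, 1 / 4, cc1, dd1, 8, by norm_num, ?_, ?_⟩
    · have h : (1 : ℝ) / (5 / 2 + 1) = 2 / 7 := by norm_num
      simp only [h]
      exact feas1
    · have h : (1 : ℝ) / (5 / 2 + 1) = 2 / 7 := by norm_num
      simp only [h]
      exact value1
  · refine ⟨by norm_num, by norm_num, 9 / 50, cc2, dd2, 6, by norm_num, ?_, ?_⟩
    · have h : (1 : ℝ) / (3 + 1) = 1 / 4 := by norm_num
      simp only [h]
      exact feas2
    · have h : (1 : ℝ) / (3 + 1) = 1 / 4 := by norm_num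
      simp only [h]
      exact value2
  · refine ⟨by norm_num, by norm_num, 1 / 10, cc3, dd3, 6, by norm_num, ?_, ?_⟩
    · have h : (1 : ℝ) / (4 + 1) = 1 / 5 := by norm_num
      simp only [h]
      exact feas3
    · have h : (1 : ℝ) / (4 + 1) = 1 / 5 := by norm_num
      simp only [h]
      exact value3
  · refine ⟨by norm_num, by norm_num, 3 / 50, cc4, dd4, 5, by norm_num, ?_, ?_⟩
    · have h : (1 : ℝ) / (5 + 1) = 1 / 6 := by norm_num
      simp only [h]
      exact feas4
    · have h : (1 : ℝ) / (5 + 1) = 1 / 6 := by norm_num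
      simp only [h]
      exact value4
  · refine ⟨by norm_num, by norm_num, 3 / 100, cc5, dd5, 5, by norm_num, ?_, ?_⟩
    · have h : (1 : ℝ) / (7 + 1) = 1 / 8 := by norm_num
      simp only [h]
      exact feas5
    · have h : (1 : ℝ) / (7 + 1) = 1 / 8 := by norm_num
      simp only [h]
      exact value5
  · refine ⟨by norm_num, by norm_num, 1 / 100, cc6, dd6, 4, by norm_num, ?_, ?_⟩
    · have h : (1 : ℝ) / (10 + 1) = 1 / 11 := by norm_num
      simp only [h]
      exact feas6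
    · have h : (1 : ℝ) / (10 + 1) = 1 / 11 := by norm_num
      simp only [h]
      exact value6

/-- infinite paths have complexity more than `k ^ 2.15` infinitely often -/
theorem path_complexity2 {D : ℝ} {γ : ℕ → {z : GaussianInt // Prime z}} (hγ : IsInfinitePath D γ)
    (n₀ : ℕ) (K : ℝ) :
    ∃ k : ℕ, 1 ≤ k ∧ K * (k : ℝ) ^ (43 / 20 : ℝ) < (complexity (fun n => (γ n).1) n₀ k : ℝ) := by
  obtain ⟨k, hk, h⟩ := path_version2 hγ n₀ certified0 (max K D) (by
      intro m n _ hmn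
      rw [Real.rpow_one]
      refine (dist_path_le hγ m n hmn).trans ?_
      exact mul_le_mul_of_nonneg_right (le_max_right K D) (Nat.cast_nonneg _))
  refine ⟨k, hk, lt_of_le_of_lt ?_ h⟩
  exact mul_le_mul_of_nonneg_right (le_max_left K D) (by positivity)

/-- the finite version for sequences with bounded steps -/
theorem finite_lipschitz (D K : ℝ) : ∃ N : ℕ, 1 ≤ N ∧ ∀ g : ℕ → GaussianInt,
    (∀ m ≤ N, ∀ n ≤ N, g m = g n → m = n) →
    (∀ n < N, dist (GaussianInt.toComplex (g n)) (GaussianInt.toComplex (g (n + 1))) ≤ D) →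
    (∀ π : GaussianInt, Prime π → π.norm ≤ N →
      ∃ c : GaussianInt, ∀ n ≤ N, ¬ π ∣ g n - c) →
    ∃ k : ℕ, 1 ≤ k ∧ k ≤ N ∧
      K * (k : ℝ) ^ (43 / 20 : ℝ) < ((stepWord g k '' {n | n + k ≤ N}).ncard : ℝ) := by
  obtain ⟨N, hN1, hN⟩ := finite_version2 certified0 (max K D)
  refine ⟨N, hN1, fun g hinj hstep hmiss => ?_⟩
  obtain ⟨k, hk1, hkN, hk⟩ := hN g hinj hmiss (by
    intro m n hmn hn
    rw [Real.rpow_one]
    have h1 : dist (GaussianInt.toComplex (g m)) (GaussianInt.toComplex (g n)) ≤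
        D * ((n - m : ℕ) : ℝ) := by
      induction n, hmn using Nat.le_induction with
      | base => simp
      | succ n hmn ih =>
        have h1 := hstep n (by omega)
        have h2 := dist_triangle (GaussianInt.toComplex (g m)) (GaussianInt.toComplex (g n))
          (GaussianInt.toComplex (g (n + 1)))
        have h3 : ((n + 1 - m : ℕ) : ℝ) = ((n - m : ℕ) : ℝ) + 1 := by
          rw [Nat.sub_add_comm hmn]; push_cast; ring
        have h4 := ih (by omega)
        rw [h3]
        linarith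
    exact h1.trans (mul_le_mul_of_nonneg_right (le_max_right K D) (Nat.cast_nonneg _)))
  refine ⟨k, hk1, hkN, lt_of_le_of_lt ?_ hk⟩
  exact mul_le_mul_of_nonneg_right (le_max_left K D) (by positivity)

end Vale.Agent.P015.H10
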