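import Vale.Agent.P015.H10.Count
import Vale.Agent.P015.H10.Path2
import Vale.Agent.P015.Cx.Power

namespace Vale.Agent.P015

/-- `s` is a morphic word: its `n`-th letter is `τ (x n)`, where `x` is a fixed point of a
non-erasing morphism `h` of a free monoid of finite rank (the image of each initial part of `x` is
an initial part of `x`) and `h` maps the first letter of `x` to a word of length at least two. -/
def IsMorphic {α : Type} (s : ℕ → α) : Prop :=
  ∃ (q : ℕ) (h : Fin q → List (Fin q)) (x : ℕ → Fin q) (τ : Fin q → α),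
    (∀ a, h a ≠ []) ∧ 2 ≤ (h (x 0)).length ∧
    (∀ n, ∃ m, ((List.range n).map x).flatMap h = (List.range m).map x) ∧
    ∀ n, s n = τ (x n)

end Vale.Agent.P015

namespace Vale.Agent.P015.H10

open Finset Vale.Agent.P015 Vale.Agent.P015.Cx

/-- **The step word of an infinite path of `G_D` is not morphic.** -/
theorem not_morphic {D : ℝ} {γ : ℕ → {z : GaussianInt // Prime z}} (hγ : IsInfinitePath D γ) :
    ¬ IsMorphic (fun n => (γ (n + 1)).1 - (γ n).1) := by
  rintro ⟨q, h, x, τ, hne, h2, hx, hs⟩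
  rcases Morph.dichotomy hne (x 0) with ⟨L0, hL0⟩ | ⟨U, hU, hrep⟩
  · obtain ⟨C0, hC0⟩ := Morph.count_factors hne (x 0) hL0
    obtain ⟨k, hk1, hk⟩ := path_complexity2 hγ 0 (4 * C0 : ℕ)
    have hk1' : (1 : ℝ) ≤ k := by exact_mod_cast hk1
    set Φ : List (Fin q) → (Fin k → GaussianInt) := fun l i => τ (l.getD i (x 0)) with hΦ
    have hsub : stepWord (fun n => (γ n).1) k '' Set.Ici 0 ⊆ Φ '' Morph.fct h (x 0) k := by
      rintro w ⟨n, -, rfl⟩
      refine ⟨_, Morph.factor_mem hne h2 hx n k, ?_⟩
      funext i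
      simp only [hΦ, stepWord]
      have e1 := hs (n + i)
      simp only at e1
      rw [e1, List.getD_eq_getElem _ _ (by simp), List.getElem_map, List.getElem_range]
    have hfin := (hC0 k).1
    have h3 : complexity (fun n => (γ n).1) 0 k ≤ C0 * (k + 1) ^ 2 := by
      unfold complexity
      exact (Set.ncard_le_ncard hsub (hfin.image Φ)).trans
        ((Set.ncard_image_le hfin).trans (hC0 k).2)
    have h4 : C0 * (k + 1) ^ 2 ≤ 4 * C0 * k ^ 2 := by
      have : (k + 1) ^ 2 ≤ 4 * k ^ 2 := by nlinarith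
      calc C0 * (k + 1) ^ 2 ≤ C0 * (4 * k ^ 2) := Nat.mul_le_mul_left _ this
        _ = _ := by ring
    have h5 : (complexity (fun n => (γ n).1) 0 k : ℝ) ≤ (4 * C0 : ℕ) * (k : ℝ) ^ 2 := by
      exact_mod_cast h3.trans h4
    have h6 : (k : ℝ) ^ 2 ≤ (k : ℝ) ^ (43 / 20 : ℝ) := by
      rw [← Real.rpow_natCast]
      exact Real.rpow_le_rpow_of_exponent_le hk1' (by norm_num)
    have h7 := mul_le_mul_of_nonneg_left h6 (Nat.cast_nonneg (α := ℝ) (4 * C0))
    linarith
  · obtain ⟨C, hC, hrepb⟩ := repetition_bound D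
    obtain ⟨m, hm⟩ := exists_nat_gt (C * Real.log (U.length + 2))
    obtain ⟨k, hk⟩ := hrep m
    obtain ⟨N, -, hN⟩ := Morph.it_eq_range hne h2 hx k
    rw [hN] at hk
    obtain ⟨n₀, hn₀⟩ := Morph.exists_position hk
    have hlen : (Morph.pw U m).length = U.length * m := by
      rw [Morph.pw_length, mul_comm]
    have h3 := hrepb γ hγ n₀ U.length m (List.length_pos_of_ne_nil hU) (by
      intro i hi
      have hi' : i + U.length < (Morph.pw U m).length := by rw [hlen]; exact hi
      have e1 := hn₀ (i + U.length) hi'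
      have e2 := hn₀ i (by omega)
      have e3 := Morph.pw_shift hi'
      have e4 : x (n₀ + i + U.length) = x (n₀ + i) := by
        rw [add_assoc, ← e1, e3, e2]
      have e5 := hs (n₀ + i + U.length)
      have e6 := hs (n₀ + i)
      simp only at e5 e6
      rw [e5, e6, e4])
    linarith

end Vale.Agent.P015.H10
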