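import Vale.Agent.P015.H10.Loops

/-! A loop produces arbitrarily long repetitions of a fixed word. -/

namespace Vale.Agent.P015.H10.Morph

variable {A : Type*} {h : A → List A}

/-- `U` repeated `m` times -/
def pw (U : List A) (m : ℕ) : List A := (List.replicate m U).flatten

theorem pw_succ (U : List A) (m : ℕ) : pw U (m + 1) = pw U m ++ U := by
  simp [pw, List.replicate_succ']

theorem pw_succ' (U : List A) (m : ℕ) : pw U (m + 1) = U ++ pw U m := by
  simp [pw, List.replicate_succ]

theorem pw_length (U : List A) (m : ℕ) : (pw U m).length = m * U.length := by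
  simp [pw]

theorem pw_reverse (U : List A) (m : ℕ) : (pw U m).reverse = pw U.reverse m := by
  induction m with
  | zero => simp [pw]
  | succ m ih => rw [pw_succ, List.reverse_append, ih, pw_succ']

/-- the words behind the loop -/
def blk (h : A → List A) (e : ℕ) (W : List A) (m : ℕ) : List A :=
  ((List.range m).map fun i => W.flatMap (it h (i * e))).flatten

theorem blk_succ (e : ℕ) (W : List A) (m : ℕ) :
    blk h e W (m + 1) = blk h e W m ++ W.flatMap (it h (m * e)) := by
  simp [blk, List.range_succ]

theorem loop_iterate {g : A} {e : ℕ} {V W : List A} (hg : it h e g = V ++ g :: W) (m : ℕ) :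
    ∃ v, it h (m * e) g = v ++ g :: blk h e W m := by
  induction m with
  | zero => exact ⟨[], by simp [it, blk]⟩
  | succ m ih =>
    obtain ⟨v, hv⟩ := ih
    refine ⟨V.flatMap (it h (m * e)) ++ v, ?_⟩
    have e1 : (m + 1) * e = m * e + e := by ring
    rw [e1, it_add, hg, List.flatMap_append, List.flatMap_cons, hv, blk_succ]
    simp

theorem finite_lists_le [Finite A] (N : ℕ) : {l : List A | l.length ≤ N}.Finite :=
  List.finite_length_le A N

theorem loop_repeat [Finite A] (hne : ∀ a, h a ≠ []) {g : A} {e : ℕ} {V W : List A}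
    (hg : it h e g = V ++ g :: W) (hW : W ≠ []) (hWb : ∀ c ∈ W, Bd h c) :
    ∃ U : List A, U ≠ [] ∧ ∀ m, ∃ k, pw U m <:+: it h k g := by
  obtain ⟨N, hN1, hN⟩ := exists_uniform (h := h)
  set w : ℕ → List A := fun i => W.flatMap (it h (i * e)) with hw
  have hlen : ∀ i, w i ∈ {l : List A | l.length ≤ N * W.length} := fun i =>
    length_flatMap_le _ fun c hc => hN c (hWb c hc) _
  obtain ⟨i, j, hij, hwij⟩ : ∃ i j, i < j ∧ w i = w j := by
    have hfin := finite_lists_le (A := A) (N * W.length)
    have := hfin.to_subtype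
    obtain ⟨i, j, hij, h1⟩ := Finite.exists_ne_map_eq_of_infinite
      (fun n : ℕ => (⟨w n, hlen n⟩ : {l : List A | l.length ≤ N * W.length}))
    have h2 : w i = w j := congrArg Subtype.val h1
    rcases lt_or_gt_of_ne hij with h3 | h3
    · exact ⟨i, j, h3, h2⟩
    · exact ⟨j, i, h3, h2.symm⟩
  have hshift : ∀ t u, w (t + u) = (w u).flatMap (it h (t * e)) := by
    intro t u
    simp only [hw]
    rw [add_mul, flatMap_it_add]
  set P := j - i with hP
  have hper : ∀ t, w (t + i + P) = w (t + i) := by
    intro t
    have e1 : t + i + P = t + j := by omega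
    rw [e1, hshift, hshift, hwij]
  have hper2 : ∀ m t, w (t + i + m * P) = w (t + i) := by
    intro m
    induction m with
    | zero => intro t; rw [zero_mul, add_zero]
    | succ m ih =>
      intro t
      have e1 : t + i + (m + 1) * P = (t + m * P) + i + P := by ring
      have e2 : t + m * P + i = t + i + m * P := by ring
      rw [e1, hper, e2, ih]
  set U : List A := ((List.range P).map fun t => w (t + i)).flatten with hU
  have hblk : ∀ m n, blk h e W (i + m * P + n) = blk h e W (i + m * P) ++
      ((List.range n).map fun t => w (t + i)).flatten := by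
    intro m n
    induction n with
    | zero => simp
    | succ n ih =>
      rw [← add_assoc, blk_succ, ih, List.range_succ, List.map_append, List.flatten_append]
      have e1 : i + m * P + n = n + i + m * P := by ring
      have e2 : W.flatMap (it h ((i + m * P + n) * e)) = w (n + i) := by
        rw [← hper2 m n, ← e1]
      rw [e2]
      simp
  have hpw : ∀ m, blk h e W (i + m * P) = blk h e W i ++ pw U m := by
    intro m
    induction m with
    | zero => simp [pw]
    | succ m ih =>
      have e1 : i + (m + 1) * P = i + m * P + P := by ring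
      rw [e1, hblk, ih, pw_succ, List.append_assoc]
  refine ⟨U, ?_, fun m => ?_⟩
  · intro hU0
    have h1 : w (0 + i) ∈ (List.range P).map fun t => w (t + i) :=
      List.mem_map.2 ⟨0, List.mem_range.2 (by omega), rfl⟩
    have h2 : w (0 + i) = [] := by
      rw [hU, List.flatten_eq_nil_iff] at hU0
      exact hU0 _ h1
    have h3 := length_le_flatMap (it_ne_nil hne ((0 + i) * e)) W
    have h4 := List.length_pos_of_ne_nil hW
    simp only [hw] at h2
    rw [h2] at h3
    simp at h3
    exact hW h3
  · obtain ⟨v, hv⟩ := loop_iterate hg (i + m * P)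
    refine ⟨(i + m * P) * e, ?_⟩
    rw [hv, hpw]
    exact ⟨v ++ g :: blk h e W i, [], by simp⟩

/-- **Dichotomy.** Either the blocks of bounded letters have bounded length or there are
arbitrarily long repetitions of a fixed nonempty word. -/
theorem dichotomy [Finite A] (hne : ∀ a, h a ≠ []) (a0 : A) :
    (∃ L0 : ℕ, ∀ k y, y <:+: it h k a0 → (∀ c ∈ y, Bd h c) → y.length ≤ L0) ∨
    ∃ U : List A, U ≠ [] ∧ ∀ m, ∃ k, pw U m <:+: it h k a0 := by
  have hup : ∀ (g : A) (k : ℕ), g ∈ it h k a0 → ∀ k' z, z <:+: it h k' g →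
      z <:+: it h (k' + k) a0 := by
    intro g k hg k' z hz
    rw [it_add]
    refine hz.trans ?_
    obtain ⟨l1, l2, hl⟩ := List.append_of_mem hg
    rw [hl, List.flatMap_append, List.flatMap_cons]
    exact ⟨_, _, by rw [List.append_assoc]⟩
  by_cases h1 : NoLoop h fun c => ∃ k, c ∈ it h k a0
  · by_cases h2 : NoLoop (rv h) fun c => ∃ k, c ∈ it h k a0
    · exact Or.inl (blocks_bounded hne a0 h1 h2)
    · right
      unfold NoLoop at h2
      push Not at h2
      obtain ⟨g, ⟨k, hk⟩, -, e, -, V, W, h3, h4, h5⟩ := h2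
      obtain ⟨U, hU, hUm⟩ := loop_repeat (h := rv h) (fun a => by simpa [rv] using hne a) h3 h5 h4
      refine ⟨U.reverse, by simpa using hU, fun m => ?_⟩
      obtain ⟨k', hk'⟩ := hUm m
      refine ⟨k' + k, hup g k hk k' _ ?_⟩
      rw [it_rv] at hk'
      have := List.reverse_infix.2 hk'
      rwa [pw_reverse, List.reverse_reverse] at this
  · right
    unfold NoLoop at h1
    push Not at h1
    obtain ⟨g, ⟨k, hk⟩, -, e, -, V, W, h3, h4, h5⟩ := h1
    obtain ⟨U, hU, hUm⟩ := loop_repeat hne h3 h5 h4
    refine ⟨U, hU, fun m => ?_⟩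
    obtain ⟨k', hk'⟩ := hUm m
    exact ⟨k' + k, hup g k hk k' _ hk'⟩

end Vale.Agent.P015.H10.Morph
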