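import Vale.Agent.P015.H10.Core3

/-! Numerical certificates. -/

namespace Vale.Agent.P015.H10

open Finset

/-- certificate for `C = 43/20` -/
noncomputable def cc0 : ℕ → ℝ
  | 0 => 23 / 10
  | 1 => 29 / 20
  | 2 => 121 / 100
  | 3 => 111 / 100
  | 4 => 53 / 50
  | 5 => 103 / 100
  | 6 => 51 / 50
  | 7 => 101 / 100
  | 8 => 1
  | 9 => 1
  | 10 => 1
  | _ => 0

/-- certificate for `C = 43/20` -/
noncomputable def dd0 : ℕ → ℝ
  | 0 => 97 / 25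
  | 1 => 183 / 25
  | 2 => 263 / 20
  | 3 => 1171 / 50
  | 4 => 4161 / 100
  | 5 => 7387 / 100
  | 6 => 3278 / 25
  | 7 => 23273 / 100
  | 8 => 41307 / 100
  | 9 => 73313 / 100
  | 10 => 65059 / 50
  | _ => 0

theorem feas0 : Feasible (20 / 63) (7 / 20) cc0 dd0 10 := by
  intro l hl
  interval_cases l <;> norm_num [Finset.sum_range_succ, cc0, dd0]

theorem value0 : 2 * (1 : ℝ) * (1 + 7 / 20 * (43 / 20 + 1)) <
    (1 - 20 / 63) * val (20 / 63) (7 / 20) 0 cc0 dd0 10 := by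
  norm_num [val, Finset.sum_range_succ, cc0, dd0]

/-- certificate for `C = 5/2` -/
noncomputable def cc1 : ℕ → ℝ
  | 0 => 51 / 25
  | 1 => 34 / 25
  | 2 => 29 / 25
  | 3 => 27 / 25
  | 4 => 26 / 25
  | 5 => 51 / 50
  | 6 => 1
  | 7 => 1
  | 8 => 1
  | _ => 0

/-- certificate for `C = 5/2` -/
noncomputable def dd1 : ℕ → ℝ
  | 0 => 102 / 25
  | 1 => 81 / 10
  | 2 => 383 / 25
  | 3 => 719 / 25
  | 4 => 2693 / 50
  | 5 => 5039 / 50
  | 6 => 9429 / 50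
  | 7 => 17641 / 50
  | 8 => 33003 / 50
  | _ => 0

theorem feas1 : Feasible (2 / 7) (1 / 4) cc1 dd1 8 := by
  intro l hl
  interval_cases l <;> norm_num [Finset.sum_range_succ, cc1, dd1]

theorem value1 : 2 * (9 / 10 : ℝ) * (1 + 1 / 4 * (5 / 2 + 1)) <
    (1 - 2 / 7) * val (2 / 7) (1 / 4) 0 cc1 dd1 8 := by
  norm_num [val, Finset.sum_range_succ, cc1, dd1]

/-- certificate for `C = 3` -/
noncomputable def cc2 : ℕ → ℝ
  | 0 => 9 / 5
  | 1 => 13 / 10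
  | 2 => 11 / 10
  | 3 => 21 / 20
  | 4 => 1
  | 5 => 1
  | 6 => 1
  | _ => 0

/-- certificate for `C = 3` -/
noncomputable def dd2 : ℕ → ℝ
  | 0 => 21 / 5
  | 1 => 9
  | 2 => 91 / 5
  | 3 => 73 / 2
  | 4 => 731 / 10
  | 5 => 585 / 4
  | 6 => 585 / 2
  | _ => 0

theorem feas2 : Feasible (1 / 4) (9 / 50) cc2 dd2 6 := by
  intro l hl
  interval_cases l <;> norm_num [Finset.sum_range_succ, cc2, dd2]

theorem value2 : 2 * (41 / 50 : ℝ) * (1 + 9 / 50 * (3 + 1)) <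
    (1 - 1 / 4) * val (1 / 4) (9 / 50) 0 cc2 dd2 6 := by
  norm_num [val, Finset.sum_range_succ, cc2, dd2]

/-- certificate for `C = 4` -/
noncomputable def cc3 : ℕ → ℝ
  | 0 => 31 / 20
  | 1 => 6 / 5
  | 2 => 21 / 20
  | 3 => 21 / 20
  | 4 => 1
  | 5 => 1
  | 6 => 1
  | _ => 0

/-- certificate for `C = 4` -/
noncomputable def dd3 : ℕ → ℝ
  | 0 => 49 / 10
  | 1 => 231 / 20
  | 2 => 261 / 10
  | 3 => 1171 / 20
  | 4 => 2619 / 20
  | 5 => 2929 / 10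
  | 6 => 13099 / 20
  | _ => 0

theorem feas3 : Feasible (1 / 5) (1 / 10) cc3 dd3 6 := by
  intro l hl
  interval_cases l <;> norm_num [Finset.sum_range_succ, cc3, dd3]

theorem value3 : 2 * (73 / 100 : ℝ) * (1 + 1 / 10 * (4 + 1)) <
    (1 - 1 / 5) * val (1 / 5) (1 / 10) 0 cc3 dd3 6 := by
  norm_num [val, Finset.sum_range_succ, cc3, dd3]

/-- certificate for `C = 5` -/
noncomputable def cc4 : ℕ → ℝ
  | 0 => 7 / 5
  | 1 => 23 / 20
  | 2 => 21 / 20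
  | 3 => 1
  | 4 => 1
  | 5 => 1
  | _ => 0

/-- certificate for `C = 5` -/
noncomputable def dd4 : ℕ → ℝ
  | 0 => 57 / 10
  | 1 => 59 / 4
  | 2 => 182 / 5
  | 3 => 893 / 10
  | 4 => 1094 / 5
  | 5 => 10719 / 20
  | _ => 0

theorem feas4 : Feasible (1 / 6) (3 / 50) cc4 dd4 5 := by
  intro l hl
  interval_cases l <;> norm_num [Finset.sum_range_succ, cc4, dd4]

theorem value4 : 2 * (27 / 40 : ℝ) * (1 + 3 / 50 * (5 + 1)) <
    (1 - 1 / 6) * val (1 / 6) (3 / 50) 0 cc4 dd4 5 := by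
  norm_num [val, Finset.sum_range_succ, cc4, dd4]

/-- certificate for `C = 7` -/
noncomputable def cc5 : ℕ → ℝ
  | 0 => 5 / 4
  | 1 => 11 / 10
  | 2 => 21 / 20
  | 3 => 1
  | 4 => 1
  | 5 => 1
  | _ => 0

/-- certificate for `C = 7` -/
noncomputable def dd5 : ℕ → ℝ
  | 0 => 36 / 5
  | 1 => 427 / 20
  | 2 => 243 / 4
  | 3 => 3439 / 20
  | 4 => 9729 / 20
  | 5 => 13759 / 10
  | _ => 0

theorem feas5 : Feasible (1 / 8) (3 / 100) cc5 dd5 5 := by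
  intro l hl
  interval_cases l <;> norm_num [Finset.sum_range_succ, cc5, dd5]

theorem value5 : 2 * (31 / 50 : ℝ) * (1 + 3 / 100 * (7 + 1)) <
    (1 - 1 / 8) * val (1 / 8) (3 / 100) 0 cc5 dd5 5 := by
  norm_num [val, Finset.sum_range_succ, cc5, dd5]

/-- certificate for `C = 10` -/
noncomputable def cc6 : ℕ → ℝ
  | 0 => 23 / 20
  | 1 => 21 / 20
  | 2 => 1
  | 3 => 1
  | 4 => 1
  | _ => 0

/-- certificate for `C = 10` -/
noncomputable def dd6 : ℕ → ℝ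
  | 0 => 23 / 2
  | 1 => 791 / 20
  | 2 => 2631 / 20
  | 3 => 873 / 2
  | 4 => 28957 / 20
  | _ => 0

theorem feas6 : Feasible (1 / 11) (1 / 100) cc6 dd6 4 := by
  intro l hl
  interval_cases l <;> norm_num [Finset.sum_range_succ, cc6, dd6]

theorem value6 : 2 * (23 / 40 : ℝ) * (1 + 1 / 100 * (10 + 1)) <
    (1 - 1 / 11) * val (1 / 11) (1 / 100) 0 cc6 dd6 4 := by
  norm_num [val, Finset.sum_range_succ, cc6, dd6]

end Vale.Agent.P015.H10
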